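import Crest.Agent.R32.Fib

/-!
Row 32: random integer matrices with prescribed orbits modulo several primes.
-/

set_option autoImplicit false
set_option linter.unusedSectionVars false

namespace Crest.Agent.R32

open Finset Matrix
open scoped BigOperators

open Classical in
/-- Indicator of a proposition. -/
noncomputable def ind (P : Prop) : ℝ := if P then 1 else 0

theorem ind_eq (P : Prop) [Decidable P] : ind P = if P then 1 else 0 := by
  unfold ind; congr

theorem ind_nonneg (P : Prop) : 0 ≤ ind P := by unfold ind; split_ifs <;> norm_num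

theorem ind_le_one (P : Prop) : ind P ≤ 1 := by unfold ind; split_ifs <;> norm_num

theorem ind_pos {P : Prop} (h : P) : ind P = 1 := if_pos h

theorem ind_neg {P : Prop} (h : ¬ P) : ind P = 0 := if_neg h

theorem ind_le {P : Prop} {a : ℝ} (h0 : 0 ≤ a) (h : P → 1 ≤ a) : ind P ≤ a := by
  by_cases hP : P
  · rw [ind_pos hP]; exact h hP
  · rw [ind_neg hP]; exact h0

theorem ind_mono {P Q : Prop} (h : P → Q) : ind P ≤ ind Q :=
  ind_le (ind_nonneg Q) fun hP => (ind_pos (h hP)).ge

theorem ind_and (P Q : Prop) : ind (P ∧ Q) = ind P * ind Q := by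
  by_cases hP : P <;> by_cases hQ : Q <;> simp [ind, hP, hQ]

theorem sum_ind {α : Type} (s : Finset α) (P : α → Prop) [DecidablePred P] :
    ∑ a ∈ s, ind (P a) = (s.filter P).card := by
  simp only [ind_eq, sum_boole]

variable {J : Type} [Fintype J] [DecidableEq J] {q : J → ℕ} [hp : ∀ j, Fact (q j).Prime]

theorem coprime_of_inj (hq : Function.Injective q) : Pairwise fun i j => Nat.Coprime (q i) (q j) :=
  fun i j h => (Nat.coprime_primes (hp i).out (hp j).out).2 fun e => h (hq e)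

theorem prod_q_pos : 0 < ∏ j, q j := prod_pos fun j _ => (hp j).out.pos

theorem exists_crt (hq : Function.Injective q) (w : ∀ j, ZMod (q j)) :
    ∃ k : ℕ, k < ∏ j, q j ∧ ∀ j, (k : ZMod (q j)) = w j := by
  obtain ⟨k, hk⟩ := Nat.chineseRemainderOfFinset (fun j => (w j).val) q univ
    (fun j _ => (hp j).out.ne_zero) fun i _ j _ h => coprime_of_inj hq h
  refine ⟨k % ∏ j, q j, Nat.mod_lt _ prod_q_pos, fun j => ?_⟩
  rw [← ZMod.natCast_zmod_val (w j), ZMod.natCast_eq_natCast_iff]
  exact ((Nat.mod_modEq _ _).of_dvd (dvd_prod_of_mem _ (mem_univ j))).trans (hk j (mem_univ j))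

noncomputable def crt (hq : Function.Injective q) (w : ∀ j, ZMod (q j)) : ℕ :=
  (exists_crt hq w).choose

/-- The integer vector with residues `a` and large part `u`. -/
noncomputable def pos (hq : Function.Injective q) (L : ℕ) (a : ∀ j, Fin 3 → ZMod (q j))
    (u : Fin 3 → Fin L) : V := fun c =>
  (crt hq fun j => a j c : ℕ) + (∏ j, q j : ℕ) * ((u c : ℕ) + if c = 0 then (L : ℤ) else 0)

variable (hq : Function.Injective q) {L : ℕ}

theorem red_pos (a : ∀ j, Fin 3 → ZMod (q j)) (u : Fin 3 → Fin L) (j : J) :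
    red (q j) (pos hq L a u) = a j := by
  funext c
  have h1 : ((∏ j, q j : ℕ) : ZMod (q j)) = 0 :=
    (ZMod.natCast_eq_zero_iff _ _).2 (dvd_prod_of_mem _ (mem_univ j))
  simp only [red, pos, Int.cast_add, Int.cast_mul, Int.cast_natCast, h1, zero_mul, add_zero]
  exact (exists_crt hq fun j => a j c).choose_spec.2 j

theorem pos_mem (a : ∀ j, Fin 3 → ZMod (q j)) (u : Fin 3 → Fin L) (c : Fin 3) :
    (if c = 0 then (((∏ j, q j) * L : ℕ) : ℤ) else 0) ≤ pos hq L a u c ∧
      pos hq L a u c ≤ (if c = 0 then (((∏ j, q j) * L : ℕ) : ℤ) else 0) + ((∏ j, q j) * L : ℕ) := by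
  have h1 : ((crt hq fun j => a j c : ℕ) : ℤ) < (∏ j, q j : ℕ) := by
    exact_mod_cast (exists_crt hq fun j => a j c).choose_spec.1
  have h2 : ((u c : ℕ) : ℤ) + 1 ≤ L := by exact_mod_cast (u c).2
  have h3 : (0 : ℤ) ≤ (crt hq fun j => a j c : ℕ) := by positivity
  have h4 : (0 : ℤ) ≤ (u c : ℕ) := by positivity
  have h5 : (0 : ℤ) ≤ (∏ j, q j : ℕ) := by positivity
  rw [pos, Nat.cast_mul]
  split_ifs <;> constructor <;> nlinarith

theorem nm_pos_le (a : ∀ j, Fin 3 → ZMod (q j)) (u : Fin 3 → Fin L) (c : Fin 3) :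
    |pos hq L a u c| ≤ (2 * ((∏ j, q j) * L) : ℕ) := by
  have := pos_mem hq a u c
  have h5 : (0 : ℤ) ≤ ((∏ j, q j) * L : ℕ) := by positivity
  rw [abs_le, Nat.cast_mul 2]
  split_ifs at this <;> constructor <;> push_cast at * <;> linarith [this.1, this.2]

theorem pos_inj (a : ∀ j, Fin 3 → ZMod (q j)) : Function.Injective (pos hq L a) := by
  intro u u' h
  funext c
  have h1 := congrFun h c
  have h2 : ((∏ j, q j : ℕ) : ℤ) ≠ 0 := by exact_mod_cast (prod_q_pos (q := q)).ne'
  simp only [pos, add_right_inj, mul_eq_mul_left_iff, h2, or_false, add_left_inj,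
    Nat.cast_inj] at h1
  exact Fin.ext h1

/-- The integer matrix whose columns are the three points. -/
noncomputable def mat (g M : ∀ j, M3 (ZMod (q j))) (u : Fin 3 → Fin 3 → Fin L) : M3 ℤ :=
  Matrix.of fun c l => pos hq L (fun j => g j *ᵥ (M j)ᵀ l) (u l) c

theorem red_mat (g M : ∀ j, M3 (ZMod (q j))) (u : Fin 3 → Fin 3 → Fin L) (j : J) :
    (Int.castRingHom (ZMod (q j))).mapMatrix (mat hq g M u) = g j * M j := by
  ext c l
  have := congrFun (red_pos hq (fun j => g j *ᵥ (M j)ᵀ l) (u l) j) c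
  simpa [red, mulVec, dotProduct, mul_apply, mat] using this

theorem det_mat (g M : ∀ j, M3 (ZMod (q j))) (u : Fin 3 → Fin 3 → Fin L) (j : J) :
    ((mat hq g M u).det : ZMod (q j)) = (g j).det * (M j).det := by
  rw [← det_mul, ← red_mat hq g M u j, ← RingHom.map_det]
  rfl

/-- The lattice of the rows. -/
def Lam (M : ∀ j, M3 (ZMod (q j))) : AddSubgroup V where
  carrier := {r | ∀ j, red (q j) r ∈ rowSp (M j)}
  zero_mem' j := by
    have : red (q j) 0 = 0 := by funext c; simp [red]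
    rw [this]; exact zero_mem _
  add_mem' {a b} ha hb j := by
    have : red (q j) (a + b) = red (q j) a + red (q j) b := by funext c; simp [red]
    rw [this]; exact add_mem (ha j) (hb j)
  neg_mem' {a} ha j := by
    have : red (q j) (-a) = -red (q j) a := by funext c; simp [red]
    rw [this]; exact neg_mem (ha j)

noncomputable def gam (M : ∀ j, M3 (ZMod (q j))) (n : V) : ℕ :=
  ∏ j, q j ^ (df (M j) - if M j *ᵥ red (q j) n = 0 then 1 else 0)

theorem red_dot (k : ℕ) (a b : V) : red k a ⬝ᵥ red k b = ((a ⬝ᵥ b : ℤ) : ZMod k) := by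
  simp [red, dotProduct]

theorem Prim.red_ne {n : V} (hn : Prim n) (k : ℕ) [Fact k.Prime] : red k n ≠ 0 := by
  obtain ⟨v, hv⟩ := hn
  intro h
  have := red_dot k v n
  rw [h, hv] at this
  simp at this

include hq in
theorem gam_spec {M : ∀ j, M3 (ZMod (q j))} (hM : ∀ j, M j ≠ 0) : Gam (Lam M) (gam M) := by
  classical
  intro n hn
  refine ⟨prod_pos fun j _ => pow_pos (hp j).out.pos _, fun r hr r' hr' h h' δ e => ?_⟩
  rw [gam, Nat.cast_prod]
  refine Fintype.prod_dvd_of_coprime (fun i j hij => Nat.isCoprime_iff_coprime.2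
    (Nat.Coprime.pow _ _ (coprime_of_inj hq hij))) fun j => ?_
  have h1 := gam_field (n := red (q j) n) (hr j) (hr' j) (by rw [red_dot, h]; simp)
    (by rw [red_dot, h']; simp)
  have h2 := df_le_two (hM j)
  obtain ⟨v, hv⟩ := hn
  have e2 : δ = v ⬝ᵥ r ⨯₃ r' := by rw [e, dotProduct_smul, hv, smul_eq_mul, mul_one]
  generalize hk : (df (M j) - if M j *ᵥ red (q j) n = 0 then 1 else 0) = k at h1
  have h3 : k ≤ 2 := by omega
  interval_cases k
  · simp
  · have h4 := h1.1 le_rfl
    have h5 : red (q j) (r ⨯₃ r') = 0 := by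
      rw [← h4]; funext c; fin_cases c <;> simp [red, cross_apply]
    rw [pow_one, ← ZMod.intCast_zmod_eq_zero_iff_dvd, e2, ← red_dot, h5, dotProduct_zero]
  · obtain ⟨h4, h5⟩ := h1.2 le_rfl
    have h6 : ∀ c, ∃ x, r c = q j * x := fun c =>
      (ZMod.intCast_zmod_eq_zero_iff_dvd _ _).1 (congrFun h4 c)
    have h7 : ∀ c, ∃ x, r' c = q j * x := fun c =>
      (ZMod.intCast_zmod_eq_zero_iff_dvd _ _).1 (congrFun h5 c)
    choose x hx using h6
    choose y hy using h7
    refine ⟨v ⬝ᵥ x ⨯₃ y, ?_⟩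
    rw [e2]
    simp [dotProduct, Fin.sum_univ_three, cross_apply, hx, hy]
    ring

open Classical in
theorem prob_le (hL : 0 < L) (G : ∀ j, Finset (M3 (ZMod (q j)))) (hG : ∀ j, (G j).Nonempty)
    (M : ∀ j, M3 (ZMod (q j))) (w : J → ℝ)
    (hw : ∀ j N, (((G j).filter fun g => g * M j = N).card : ℝ) ≤ w j * (G j).card)
    (E : M3 ℤ → Prop) (S : Finset (M3 ℤ))
    (hS : ∀ g ∈ Fintype.piFinset G, ∀ u : Fin 3 → Fin 3 → Fin L, E (mat hq g M u) → mat hq g M u ∈ S) :
    𝔼 g ∈ Fintype.piFinset G, 𝔼 u : Fin 3 → Fin 3 → Fin L, ind (E (mat hq g M u))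
      ≤ (∏ j, w j) * S.card / (L : ℝ) ^ 9 := by
  have h1 : ∀ g ∈ Fintype.piFinset G,
      𝔼 u : Fin 3 → Fin 3 → Fin L, ind (E (mat hq g M u)) ≤
      (∑ N ∈ S, ∏ j, if g j * M j = (Int.castRingHom (ZMod (q j))).mapMatrix N then (1 : ℝ) else 0)
        / (L : ℝ) ^ 9 := fun g hg => by
    rw [Fintype.expect_eq_sum_div_card]
    simp only [Fintype.card_pi, Fintype.card_fin, prod_const, card_univ, Nat.cast_pow]
    rw [← pow_mul]
    gcongr
    simp only [Fintype.prod_boole, sum_boole, sum_ind, Nat.cast_le]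
    refine card_le_card_of_injOn (mat hq g M) (fun u hu => mem_filter.2
      ⟨hS g hg u (mem_filter.1 hu).2, fun j => (red_mat hq g M u j).symm⟩) fun u _ u' _ h => ?_
    funext l
    exact pos_inj hq _ (funext fun c => congrFun (congrFun h c) l)
  refine (expect_le_expect h1).trans ?_
  rw [← expect_div, expect_sum_comm]
  gcongr
  refine (sum_le_card_nsmul _ _ (∏ j, w j) fun N _ => ?_).trans (by simp [mul_comm])
  rw [expect_eq_sum_div_card, ← prod_univ_sum G fun j g =>
    if g * M j = (Int.castRingHom (ZMod (q j))).mapMatrix N then (1 : ℝ) else 0,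
    Fintype.card_piFinset, Nat.cast_prod, ← prod_div_distrib]
  refine prod_le_prod (fun j _ => by positivity) fun j _ => ?_
  rw [sum_boole, div_le_iff₀ (by exact_mod_cast (hG j).card_pos)]
  exact hw j _

end Crest.Agent.R32
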