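import Crest.Agent.R32.Core

/-!
Row 32: probability that the determinant takes a given value.
-/

set_option autoImplicit false
set_option linter.unusedSectionVars false

namespace Crest.Agent.R32

open Finset Matrix
open scoped BigOperators

variable {J : Type} [Fintype J] [DecidableEq J] {q : J → ℕ} [hp : ∀ j, Fact (q j).Prime]

structure GoodG (G : ∀ j, Finset (M3 (ZMod (q j)))) (θ : J → ℝ) : Prop where
  ne : ∀ j, (G j).Nonempty
  inv : ∀ j, ∀ g ∈ G j, g.det ≠ 0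
  nn : ∀ j, 0 ≤ θ j
  fib : ∀ j (M N : M3 (ZMod (q j))), (((G j).filter fun g => g * M = N).card : ℝ) ≤
    12 * (q j : ℝ) ^ (3 * df M) / (q j : ℝ) ^ 9 * (if df M = 0 then θ j else 1) * (G j).card

variable (hq : Function.Injective q) {L : ℕ}

theorem mat_rows (g M : ∀ j, M3 (ZMod (q j))) (u : Fin 3 → Fin 3 → Fin L) (i : Fin 3) :
    nm (mat hq g M u i) ≤ 2 * ((∏ j, q j) * L) ∧ mat hq g M u i ∈ Lam M := by
  refine ⟨nm_le.2 fun c => nm_pos_le hq _ _ _, fun j => ?_⟩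
  have := row_mul_mem (g j) (M j) i
  rw [← red_mat hq g M u j] at this
  exact this

open Classical in
theorem core_t (hL : 0 < L) {G : ∀ j, Finset (M3 (ZMod (q j)))} {θ : J → ℝ} (hG : GoodG G θ)
    {M : ∀ j, M3 (ZMod (q j))} (hM : ∀ j, M j ≠ 0) {t : ℤ} (ht : t ≠ 0)
    (htm : |t| ≤ (∏ j, q j : ℕ)) :
    𝔼 g ∈ Fintype.piFinset G, 𝔼 u : Fin 3 → Fin 3 → Fin L,
      ind ((mat hq g M u).det = t) ≤
      288 ^ 3 * 216 * (Nat.log 2 (2 * (2 * ((∏ j, q j) * L)) ^ 2) + 1) *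
        (∏ j, 12 * (q j : ℝ) ^ df (M j) * (if df (M j) = 0 then θ j else 1)) /
          ((∏ j, q j : ℕ) * L : ℝ) ^ 3 +
      27 * 288 ^ 2 * 5 * (∏ j, q j : ℕ) ^ 13 / ((∏ j, q j : ℕ) * L : ℝ) ^ 4 := by
  set m := ∏ j, q j with hm
  have hm0 : 0 < m := prod_q_pos
  have hm1 : (1 : ℝ) ≤ m := by exact_mod_cast hm0
  have hL1 : (1 : ℝ) ≤ L := by exact_mod_cast hL
  have hq0 : ∀ j, (0 : ℝ) < q j := fun j => by exact_mod_cast (hp j).out.pos
  set w₁ : J → ℝ := fun j =>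
    12 * (q j : ℝ) ^ (3 * df (M j)) / (q j : ℝ) ^ 9 * (if df (M j) = 0 then θ j else 1) with hw₁
  have hθ : ∀ j, 0 ≤ (if df (M j) = 0 then θ j else 1) := fun j => by
    split_ifs
    exacts [hG.nn j, zero_le_one]
  have hw0 : ∀ j, 0 ≤ w₁ j := fun j => by
    have := hθ j
    have := hq0 j
    positivity
  set S := ((Fintype.piFinset G ×ˢ (univ : Finset (Fin 3 → Fin 3 → Fin L))).image
    fun x => mat hq x.1 M x.2).filter fun N => N.det = t with hS
  have h1 := prob_le hq hL G hG.ne M (fun j => min 1 (w₁ j)) (fun j N => by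
      rcases le_total 1 (w₁ j) with h | h
      · rw [min_eq_left h, one_mul]
        exact_mod_cast card_filter_le _ _
      · rw [min_eq_right h]; exact hG.fib j _ _) (fun N => N.det = t) S
    fun g hg u h => mem_filter.2 ⟨mem_image.2 ⟨(g, u), mem_product.2 ⟨hg, mem_univ _⟩, rfl⟩, h⟩
  have h2 := card_det_ne (gam_spec hq hM) (ρ := 2 * (m * L)) ht htm S fun N hN => by
    obtain ⟨h1, h2⟩ := mem_filter.1 hN
    obtain ⟨x, -, rfl⟩ := mem_image.1 h1
    exact ⟨mat_rows hq _ _ _, h2⟩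
  set e : ℝ := ∏ j, (q j : ℝ) ^ df (M j) with he
  have he0 : 0 < e := prod_pos fun j _ => pow_pos (hq0 j) _
  set φ : ∀ j, (Fin 3 → ZMod (q j)) → ℝ :=
    fun j w => if w ≠ 0 ∧ M j *ᵥ w = 0 then (q j : ℝ) ^ 3 else 1 with hφ
  have hφ0 : ∀ j w, 0 ≤ φ j w := fun j w => by simp only [hφ]; split_ifs <;> positivity
  have hφs : ∀ j, ∑ w, φ j w ≤ (q j : ℝ) ^ 3 * (q j : ℝ) ^ df (M j) := fun j => by
    have a1 : ∀ w, φ j w ≤ 1 + (q j : ℝ) ^ 3 * ((if M j *ᵥ w = 0 then 1 else 0) -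
        if w = 0 then 1 else 0) := fun w => by
      by_cases h0 : w = 0
      · simp [hφ, h0]
      · by_cases h1 : M j *ᵥ w = 0 <;> simp [hφ, h0, h1]
    refine (sum_le_sum fun w _ => a1 w).trans (le_of_eq ?_)
    rw [sum_add_distrib, ← mul_sum, sum_sub_distrib, sum_boole, card_ker]
    simp [ZMod.card]
    ring
  have h3 := sum_dyadic (φ := fun n => ∏ j, φ j (red (q j) n))
    (fun n => prod_nonneg fun j _ => hφ0 _ _) (A := 27 * e) (by positivity) (m₁ := m)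
    (fun Y _ hY => by
      refine (sum_box_periodic q (coprime_of_inj hq) φ hφ0 Y).trans ?_
      have a1 : (m : ℝ) ≤ Y := by exact_mod_cast hY
      have a2 : (2 * Y / m + 1 : ℝ) ≤ 3 * Y / m := by
        rw [div_add_one (by positivity)]
        gcongr
        linarith
      calc _ ≤ (3 * Y / m : ℝ) ^ 3 * ∏ j, (q j : ℝ) ^ 3 * (q j : ℝ) ^ df (M j) := by
            gcongr with j
            exact hφs j
        _ = _ := by
            rw [prod_mul_distrib, prod_pow, ← Nat.cast_prod, ← hm, ← he]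
            field_simp
            norm_num)
    (Z := 2 * (2 * (m * L)) ^ 2)
    (S := (box (2 * (2 * (m * L)) ^ 2)).filter fun n => Prim n ∧ m ≤ nm n) fun n hn =>
      ⟨(mem_filter.1 hn).2.1.ne_zero, (mem_filter.1 hn).2.2, mem_box.1 (mem_filter.1 hn).1⟩
  have h4 : ∀ n, Prim n → (72 * ((2 * (m * L) : ℕ) : ℝ) ^ 2 / (gam M n * nm n) : ℝ) ^ 3 =
      (288 * (m * L) ^ 2 / e) ^ 3 * ((∏ j, φ j (red (q j) n)) / (nm n : ℝ) ^ 3) := fun n hn => by
    have a1 : (gam M n : ℝ) ^ 3 * ∏ j, φ j (red (q j) n) = e ^ 3 := by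
      rw [gam, Nat.cast_prod, ← prod_pow, ← prod_mul_distrib, he, ← prod_pow]
      refine prod_congr rfl fun j _ => ?_
      have b1 := hn.red_ne (q j)
      by_cases h1 : M j *ᵥ red (q j) n = 0
      · have b2 := one_le_df b1 h1
        simp only [hφ, b1, h1, ne_eq, not_false_eq_true, and_self, if_true, Nat.cast_pow]
        rw [← mul_pow, ← pow_succ, Nat.sub_add_cancel b2]
      · simp [hφ, h1]
    have a2 : (0 : ℝ) < gam M n := by exact_mod_cast (gam_spec hq hM n hn).1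
    have a3 : (0 : ℝ) < nm n := by exact_mod_cast nm_pos hn.ne_zero
    rw [mul_comm, ← eq_div_iff (by positivity)] at a1
    rw [a1]
    push_cast
    field_simp
    norm_num
  rw [sum_congr rfl fun n hn => h4 n (mem_filter.1 hn).2.1, ← mul_sum] at h2
  have h5 : ∏ j, min 1 (w₁ j) ≤ 1 :=
    prod_le_one (fun j _ => le_min zero_le_one (hw0 j)) fun j _ => min_le_left _ _
  have h6 : ∏ j, min 1 (w₁ j) ≤ ∏ j, w₁ j :=
    prod_le_prod (fun j _ => le_min zero_le_one (hw0 j)) fun j _ => min_le_right _ _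
  have h7 : 0 ≤ ∏ j, min 1 (w₁ j) := prod_nonneg fun j _ => le_min zero_le_one (hw0 j)
  have h8 : ∏ j, w₁ j = e ^ 2 / (m : ℝ) ^ 9 *
      ∏ j, 12 * (q j : ℝ) ^ df (M j) * (if df (M j) = 0 then θ j else 1) := by
    rw [he, hm, Nat.cast_prod, ← prod_pow, ← prod_pow, ← prod_div_distrib, ← prod_mul_distrib]
    refine prod_congr rfl fun j _ => ?_
    simp only [hw₁]
    ring
  refine h1.trans ((div_le_div_of_nonneg_right (mul_le_mul_of_nonneg_left h2 h7)
    (by positivity)).trans ?_)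
  rw [mul_add, add_div]
  refine add_le_add ?_ ?_
  · calc _ ≤ (∏ j, w₁ j) * ((288 * (m * L) ^ 2 / e) ^ 3 *
          (8 * (27 * e) * (Nat.log 2 (2 * (2 * (m * L)) ^ 2) + 1))) / (L : ℝ) ^ 9 := by
          gcongr
          exact h7.trans h6
      _ = _ := by
          rw [h8]
          field_simp
          ring
  · have a1 : (1 : ℝ) ≤ m * L := one_le_mul_of_one_le_of_one_le hm1 hL1
    calc _ ≤ 1 * ((3 * m) ^ 3 * (m * (288 * (m * L) ^ 2) ^ 2 * (5 * (m * L)))) / (L : ℝ) ^ 9 := by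
          push_cast
          have b1 : (2 * m + 1 : ℝ) ≤ 3 * m := by linarith
          have b2 : (2 * (2 * (m * L)) + 1 : ℝ) ≤ 5 * (m * L) := by linarith
          have b3 : (72 * (2 * (m * L)) ^ 2 : ℝ) = 288 * (m * L) ^ 2 := by ring
          rw [b3]
          gcongr
      _ = _ := by
          field_simp
          norm_num

open Classical in
theorem core_zero (hL : 0 < L) {G : ∀ j, Finset (M3 (ZMod (q j)))} {θ : J → ℝ} (hG : GoodG G θ)
    {M : ∀ j, M3 (ZMod (q j))} (hM : ∀ j, M j ≠ 0) :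
    𝔼 g ∈ Fintype.piFinset G, 𝔼 u : Fin 3 → Fin 3 → Fin L,
      ind ((mat hq g M u).det = 0 ∧
        ∀ l l', l ≠ l' → (mat hq g M u)ᵀ l ⨯₃ (mat hq g M u)ᵀ l' ≠ 0) ≤
      72 ^ 3 * 12 ^ Fintype.card J / (L : ℝ) ^ 3 *
        ∑ n ∈ (box (2 * (2 * ((∏ j, q j) * L)) ^ 2)).filter (fun n => Prim n ∧ ∀ c, n c ≠ 0),
          ind (∀ j, M j *ᵥ red (q j) n = 0) / (nm n : ℝ) ^ 3 := by
  set m := ∏ j, q j with hm
  have hm0 : 0 < m := prod_q_pos
  have hq0 : ∀ j, (0 : ℝ) < q j := fun j => by exact_mod_cast (hp j).out.pos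
  set w₁ : J → ℝ := fun j =>
    12 * (q j : ℝ) ^ (3 * df (M j)) / (q j : ℝ) ^ 9 * (if df (M j) = 0 then θ j else 1) with hw₁
  have hw0 : 0 ≤ ∏ j, w₁ j := prod_nonneg fun j _ => by
    have : 0 ≤ (if df (M j) = 0 then θ j else 1) := by
      split_ifs
      exacts [hG.nn j, zero_le_one]
    have := hq0 j
    positivity
  set S := ((Fintype.piFinset G ×ˢ (univ : Finset (Fin 3 → Fin 3 → Fin L))).image
    fun x => mat hq x.1 M x.2).filter fun N => N.det = 0 ∧ ∀ l l', l ≠ l' → Nᵀ l ⨯₃ Nᵀ l' ≠ 0 with hS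
  have h1 := prob_le hq hL G hG.ne M w₁ (fun j N => hG.fib j _ _)
    (fun N => N.det = 0 ∧ ∀ l l', l ≠ l' → Nᵀ l ⨯₃ Nᵀ l' ≠ 0) S
    fun g hg u h => mem_filter.2 ⟨mem_image.2 ⟨(g, u), mem_product.2 ⟨hg, mem_univ _⟩, rfl⟩, h⟩
  have h2 := card_det_zero (gam_spec hq hM) (ρ := 2 * (m * L))
    (fun n => ∀ j, M j *ᵥ red (q j) n = 0) S fun N hN => by
    obtain ⟨h1, h2⟩ := mem_filter.1 hN
    obtain ⟨x, hx, rfl⟩ := mem_image.1 h1
    refine ⟨mat_rows hq _ _ _, h2.1, h2.2, fun n hn j => ?_⟩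
    have a1 : (x.1 j * M j) *ᵥ red (q j) n = 0 := by
      rw [← red_mat hq x.1 M x.2 j]
      funext c
      have := congrArg (fun z : ℤ => (z : ZMod (q j))) (congrFun hn c)
      simpa [mulVec, dotProduct, red] using this
    rw [← mulVec_mulVec] at a1
    exact eq_zero_of_mulVec_eq_zero
      (hG.inv j _ (Fintype.mem_piFinset.1 (mem_product.1 hx).1 j)) a1
  refine h1.trans ((div_le_div_of_nonneg_right
    (mul_le_mul_of_nonneg_left h2 hw0) (by positivity)).trans (le_of_eq ?_))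
  simp only [← and_assoc]
  rw [mul_sum, mul_sum, sum_div, ← filter_filter, sum_filter]
  refine sum_congr rfl fun n hn => ?_
  have hn' := (mem_filter.1 hn).2.1
  rw [ind_eq]
  split_ifs with h
  swap
  · simp
  have a1 : (∏ j, w₁ j) * (m : ℝ) ^ 6 = 12 ^ Fintype.card J * (gam M n : ℝ) ^ 3 := by
    rw [gam, hm, Nat.cast_prod, Nat.cast_prod, ← prod_pow, ← prod_pow, ← prod_mul_distrib,
      ← card_univ, ← prod_const, ← prod_mul_distrib]
    refine prod_congr rfl fun j _ => ?_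
    obtain ⟨k, hk⟩ := Nat.exists_eq_add_of_le' (one_le_df (hn'.red_ne (q j)) (h j))
    have := hq0 j
    simp only [hw₁, hk, h j, if_true, Nat.add_sub_cancel, Nat.succ_ne_zero, if_false, Nat.cast_pow]
    field_simp
    ring
  have a2 : (0 : ℝ) < gam M n := by exact_mod_cast (gam_spec hq hM n hn').1
  have a3 : (0 : ℝ) < nm n := by exact_mod_cast nm_pos hn'.ne_zero
  rw [← eq_div_iff (by positivity)] at a1
  rw [a1]
  push_cast
  field_simp
  norm_num

end Crest.Agent.R32
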