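import Crest.Agent.R32.Core

/-!
Row 32: elementary finite probability, the deletion method.
-/

set_option autoImplicit false

namespace Crest.Agent.R32

open Finset
open scoped BigOperators

theorem expect_ind_le {Ω Ω' : Type} [Fintype Ω] [Fintype Ω'] {E : Ω → Prop} (f : Ω → Ω') (k : ℕ)
    (h : ∀ b, ∀ s : Finset Ω, (∀ a ∈ s, E a ∧ f a = b) → s.card ≤ k) :
    𝔼 a, ind (E a) ≤ k * Fintype.card Ω' / Fintype.card Ω := by
  classical
  rw [Fintype.expect_eq_sum_div_card, sum_ind]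
  gcongr
  exact_mod_cast card_le_mul_card_image_of_maps_to (t := univ) (f := f) (fun _ _ => mem_univ _) k
    fun b _ => h b _ fun a ha => ⟨(mem_filter.1 (mem_filter.1 ha).1).2, (mem_filter.1 ha).2⟩

theorem expect_ind_le_of_inj {Ω Ω' : Type} [Fintype Ω] [Fintype Ω'] {E : Ω → Prop} (f : Ω → Ω')
    (h : ∀ a a', E a → E a' → f a = f a' → a = a') :
    𝔼 a, ind (E a) ≤ Fintype.card Ω' / Fintype.card Ω := by
  have := expect_ind_le (E := E) f 1 fun b s hs => card_le_one.2 fun a ha a' ha' =>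
    h a a' (hs a ha).1 (hs a' ha').1 ((hs a ha).2.trans (hs a' ha').2.symm)
  simpa using this

theorem expect_prod_pi {ι : Type} [Fintype ι] [DecidableEq ι] {T : ι → Type} [∀ i, Fintype (T i)]
    (f : ∀ i, T i → ℝ) : 𝔼 x : ∀ i, T i, ∏ i, f i (x i) = ∏ i, 𝔼 y, f i y := by
  simp only [Fintype.expect_eq_sum_div_card]
  rw [prod_div_distrib, Fintype.prod_sum, Fintype.card_pi, Nat.cast_prod]

theorem expect_comp_inj {ι κ Ω : Type} [Fintype ι] [DecidableEq ι] [Fintype κ] [DecidableEq κ]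
    [Fintype Ω] [Nonempty Ω] {τ : κ → ι} (hτ : Function.Injective τ) (g : (κ → Ω) → ℝ) :
    𝔼 f : ι → Ω, g (f ∘ τ) = 𝔼 ω, g ω := by
  classical
  let e : (ι → Ω) ≃ (κ → Ω) × ({i // ¬ i ∈ Set.range τ} → Ω) :=
    (Equiv.piEquivPiSubtypeProd (fun i => i ∈ Set.range τ) fun _ => Ω).trans
      (Equiv.prodCongr (Equiv.arrowCongr (Equiv.ofInjective τ hτ).symm (Equiv.refl Ω))
        (Equiv.refl _))
  rw [Fintype.expect_equiv e (fun f => g (f ∘ τ)) (fun x => g x.1) fun f => rfl,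
    ← univ_product_univ, expect_product]
  simp

theorem deletion {Ω : Type} [Fintype Ω] [Nonempty Ω] (B₃ : (Fin 3 → Ω) → Prop)
    (B₂ : (Fin 2 → Ω) → Prop) {ε₃ ε₂ : ℝ} (h₃ : 𝔼 ω, ind (B₃ ω) ≤ ε₃) (h₂ : 𝔼 ω, ind (B₂ ω) ≤ ε₂)
    {n : ℕ} (hn : (2 * n : ℝ) ^ 3 * ε₃ + (2 * n : ℝ) ^ 2 * ε₂ ≤ n) :
    ∃ f : Fin n → Ω, (∀ τ : Fin 3 → Fin n, Function.Injective τ → ¬ B₃ (f ∘ τ)) ∧
      ∀ τ : Fin 2 → Fin n, Function.Injective τ → ¬ B₂ (f ∘ τ) := by
  classical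
  have key : ∀ (k : ℕ) (B : (Fin k → Ω) → Prop) (ε : ℝ), 𝔼 ω, ind (B ω) ≤ ε →
      𝔼 f : Fin (2 * n) → Ω, ((univ.filter fun τ : Fin k → Fin (2 * n) =>
        Function.Injective τ ∧ B (f ∘ τ)).card : ℝ) ≤ (2 * n : ℝ) ^ k * ε := by
    intro k B ε h
    have hε : 0 ≤ ε := le_trans (expect_nonneg fun _ _ => ind_nonneg _) h
    simp only [← sum_ind]
    rw [expect_sum_comm]
    refine (sum_le_card_nsmul _ _ ε fun τ _ => ?_).trans (by simp)
    by_cases hτ : Function.Injective τ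
    · simp only [hτ, true_and]
      rwa [expect_comp_inj hτ fun ω => ind (B ω)]
    · simp only [hτ, false_and, ind_neg not_false]
      simpa using hε
  obtain ⟨f, -, hf⟩ := exists_le_of_expect_le univ_nonempty
    (((expect_add_distrib _ _ _).trans_le (add_le_add (key 3 B₃ ε₃ h₃) (key 2 B₂ ε₂ h₂))).trans hn)
  set D := (univ.filter fun τ : Fin 3 → Fin (2 * n) =>
      Function.Injective τ ∧ B₃ (f ∘ τ)).image (fun τ => τ 0) ∪
    (univ.filter fun τ : Fin 2 → Fin (2 * n) =>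
      Function.Injective τ ∧ B₂ (f ∘ τ)).image (fun τ => τ 0) with hD
  have h1 : D.card ≤ n := (card_union_le _ _).trans
    ((add_le_add card_image_le card_image_le).trans (by exact_mod_cast hf))
  have h2 : n ≤ Dᶜ.card := by rw [card_compl, Fintype.card_fin]; omega
  have h3 : ∀ i, Dᶜ.orderEmbOfCardLe h2 i ∉ D := fun i =>
    mem_compl.1 (orderEmbOfCardLe_mem _ h2 i)
  refine ⟨f ∘ Dᶜ.orderEmbOfCardLe h2, fun τ hτ hB => h3 (τ 0) ?_, fun τ hτ hB => h3 (τ 0) ?_⟩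
  · exact mem_union_left _ (mem_image.2 ⟨Dᶜ.orderEmbOfCardLe h2 ∘ τ, mem_filter.2
      ⟨mem_univ _, (Dᶜ.orderEmbOfCardLe h2).injective.comp hτ, hB⟩, rfl⟩)
  · exact mem_union_right _ (mem_image.2 ⟨Dᶜ.orderEmbOfCardLe h2 ∘ τ, mem_filter.2
      ⟨mem_univ _, (Dᶜ.orderEmbOfCardLe h2).injective.comp hτ, hB⟩, rfl⟩)

end Crest.Agent.R32
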