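import Crest.Agent.R32.Lat2

/-!
Row 32: `3 × 3` matrices over a finite field.
-/

set_option autoImplicit false

namespace Crest.Agent.R32

open Finset Matrix Module

variable {F : Type} [Field F]

abbrev M3 (F : Type) : Type := Matrix (Fin 3) (Fin 3) F

/-- The corank. -/
noncomputable def df (M : M3 F) : ℕ := 3 - M.rank

noncomputable def rowSp (M : M3 F) : Submodule F (Fin 3 → F) := LinearMap.range Mᵀ.mulVecLin

theorem rank_le3 (M : M3 F) : M.rank ≤ 3 := rank_le_width M

theorem df_transpose (M : M3 F) : df Mᵀ = df M := by rw [df, df, rank_transpose]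

theorem finrank_rowSp (M : M3 F) : finrank F (rowSp M) = 3 - df M := by
  have := rank_le3 M
  have e : finrank F (rowSp M) = M.rank := rank_transpose M
  rw [e, df]; omega

theorem finrank_ker (M : M3 F) : finrank F (LinearMap.ker M.mulVecLin) = df M := by
  have := LinearMap.finrank_range_add_finrank_ker M.mulVecLin
  have e : finrank F (LinearMap.range M.mulVecLin) = M.rank := rfl
  rw [e, finrank_fin_fun] at this
  rw [df]; omega

theorem row_mul_mem (g M : M3 F) (i : Fin 3) : (g * M) i ∈ rowSp M :=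
  ⟨g i, by funext j; simp [vecMul, dotProduct, mul_apply]⟩

theorem one_le_df {M : M3 F} {n : Fin 3 → F} (hn : n ≠ 0) (h : M *ᵥ n = 0) : 1 ≤ df M := by
  rw [← finrank_ker, Nat.one_le_iff_ne_zero, Ne, Submodule.finrank_eq_zero]
  intro h0
  exact hn ((Submodule.eq_bot_iff _).1 h0 n h)

theorem det_eq_zero_of_df {M : M3 F} (h : 1 ≤ df M) : M.det = 0 := by
  by_contra h0
  have := rank_of_det_ne_zero h0
  rw [df, this] at h
  simp at h

theorem df_le_two {M : M3 F} (h : M ≠ 0) : df M ≤ 2 := by
  by_contra h2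
  have h3 : finrank F (rowSp M) = 0 := by rw [finrank_rowSp]; omega
  rw [Submodule.finrank_eq_zero, Submodule.eq_bot_iff] at h3
  exact h (funext fun i => h3 _ (by simpa using row_mul_mem 1 M i))

theorem cross_eq_zero_of_finrank {W : Submodule F (Fin 3 → F)} (h : finrank F W ≤ 1)
    {r r' : Fin 3 → F} (hr : r ∈ W) (hr' : r' ∈ W) : r ⨯₃ r' = 0 := by
  obtain ⟨v, hv⟩ := finrank_le_one_iff.1 h
  obtain ⟨c, hc⟩ := hv ⟨r, hr⟩
  obtain ⟨c', hc'⟩ := hv ⟨r', hr'⟩
  have e : r = c • (v : Fin 3 → F) := (congrArg Subtype.val hc).symm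
  have e' : r' = c' • (v : Fin 3 → F) := (congrArg Subtype.val hc').symm
  rw [e, e']
  simp

theorem col_cross_of_df {M : M3 F} (h : 2 ≤ df M) (l l' : Fin 3) : Mᵀ l ⨯₃ Mᵀ l' = 0 :=
  cross_eq_zero_of_finrank (W := rowSp Mᵀ) (by rw [finrank_rowSp, df_transpose]; omega)
    (by simpa using row_mul_mem 1 Mᵀ l) (by simpa using row_mul_mem 1 Mᵀ l')

theorem gam_field [DecidableEq F] {M : M3 F} {n r r' : Fin 3 → F} (hr : r ∈ rowSp M) (hr' : r' ∈ rowSp M)
    (h : n ⬝ᵥ r = 0) (h' : n ⬝ᵥ r' = 0) :
    (1 ≤ df M - (if M *ᵥ n = 0 then 1 else 0) → r ⨯₃ r' = 0) ∧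
      (2 ≤ df M - (if M *ᵥ n = 0 then 1 else 0) → r = 0 ∧ r' = 0) := by
  set W := rowSp M ⊓ LinearMap.ker (dotProductBilin F F n) with hW
  have h1 : r ∈ W := ⟨hr, h⟩
  have h2 : r' ∈ W := ⟨hr', h'⟩
  have h3 : finrank F W + (df M - (if M *ᵥ n = 0 then 1 else 0)) ≤ 2 ∨
      df M - (if M *ᵥ n = 0 then 1 else 0) = 0 := by
    have a1 : finrank F W ≤ 3 - df M := finrank_rowSp M ▸ Submodule.finrank_mono inf_le_left
    have a0 : df M ≤ 3 := Nat.sub_le _ _
    split_ifs with hn
    · omega
    · have a2 : W < rowSp M := lt_of_le_of_ne inf_le_left fun e => hn (funext fun i => by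
        have : M i ∈ W := e ▸ (by simpa using row_mul_mem 1 M i)
        rw [mulVec, dotProduct_comm]
        exact this.2)
      have a3 := Submodule.finrank_lt_finrank_of_lt a2
      rw [finrank_rowSp] at a3
      omega
  refine ⟨fun k => cross_eq_zero_of_finrank (W := W) (by omega) h1 h2, fun k => ?_⟩
  have h4 : finrank F W = 0 := by omega
  rw [Submodule.finrank_eq_zero, Submodule.eq_bot_iff] at h4
  exact ⟨h4 _ h1, h4 _ h2⟩

variable [Fintype F] [DecidableEq F]

theorem card_ker (M : M3 F) :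
    (univ.filter fun n => M *ᵥ n = 0).card = Fintype.card F ^ df M := by
  classical
  rw [← finrank_ker, ← Module.card_eq_pow_finrank, Fintype.card_subtype]
  congr 1
  ext n
  simp

theorem card_fib (M N : M3 F) :
    (univ.filter fun g : M3 F => g * M = N).card ≤ Fintype.card F ^ (3 * df M) := by
  rcases (univ.filter fun g : M3 F => g * M = N).eq_empty_or_nonempty with he | ⟨g₀, h₀⟩
  · rw [he]; simp
  have : (univ.filter fun g : M3 F => g * M = N).card ≤
      (Fintype.piFinset fun _ : Fin 3 => univ.filter fun n => Mᵀ *ᵥ n = 0).card := by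
    refine card_le_card_of_injOn (fun g i => (g - g₀) i) (fun g hg => ?_) fun g _ g' _ h => ?_
    · refine Fintype.mem_piFinset.2 fun i => mem_filter.2 ⟨mem_univ _, ?_⟩
      have e : (g - g₀) * M = 0 := by
        rw [sub_mul, (mem_filter.1 hg).2, (mem_filter.1 h₀).2, sub_self]
      funext j
      have := congrFun (congrFun e i) j
      simpa [mulVec, dotProduct, mul_apply, mul_comm] using this
    · exact sub_left_injective (b := g₀) h
  rwa [Fintype.card_piFinset, prod_const, card_ker, df_transpose, card_univ, Fintype.card_fin,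
    ← pow_mul, mul_comm] at this

theorem card_fib_det (M N : M3 F) (h : 1 ≤ df M) {κ : F} (hκ : κ ≠ 0) :
    (univ.filter fun g : M3 F => g.det = κ ∧ g * M = N).card * Fintype.card F ≤
      3 * Fintype.card F ^ (3 * df M) := by
  have hex : ∃ ζ : Fin 3 → F, ζ ≠ 0 ∧ Mᵀ *ᵥ ζ = 0 := by
    rw [← df_transpose, ← finrank_ker, Nat.one_le_iff_ne_zero, Ne, Submodule.finrank_eq_zero,
      Submodule.eq_bot_iff] at h
    push Not at h
    obtain ⟨ζ, h1, h2⟩ := h
    exact ⟨ζ, h2, h1⟩
  obtain ⟨ζ, hζ0, hζ⟩ := hex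
  have hc : ∀ g : M3 F, ∃ c, g.det = κ → (g.updateRow c ζ).det ≠ 0 := fun g => by
    by_cases hg : g.det = κ
    swap
    · exact ⟨0, fun h => absurd h hg⟩
    by_contra hcon
    push Not at hcon
    have a1 : gᵀ.cramer ζ = 0 := funext fun c => by rw [cramer_transpose_apply]; exact (hcon c).2
    have a2 := mulVec_cramer gᵀ ζ
    rw [a1, mulVec_zero, det_transpose, hg] at a2
    exact hζ0 ((smul_eq_zero.1 a2.symm).resolve_left hκ)
  choose c hc using hc
  rw [card_eq_sum_card_fiberwise (f := c) (t := univ) fun _ _ => mem_univ _, sum_mul]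
  refine (sum_le_card_nsmul _ _ (Fintype.card F ^ (3 * df M)) fun k _ => ?_).trans (by simp)
  refine le_trans ?_ (card_fib M N)
  rw [← card_univ, ← card_product]
  refine card_le_card_of_injOn (fun x => x.1.updateRow k (x.1 k + x.2 • ζ)) (fun x hx => ?_)
    fun x hx y hy hxy => ?_
  · have hx' := (mem_filter.1 (mem_filter.1 (mem_product.1 hx).1).1).2.2
    refine mem_filter.2 ⟨mem_univ _, ?_⟩
    rw [← hx']
    ext i j
    by_cases hi : i = k
    · subst hi
      have := congrFun hζ j
      simp only [mulVec, dotProduct, transpose_apply, Pi.zero_apply] at this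
      simp only [mul_apply, updateRow_self, Pi.add_apply, Pi.smul_apply, smul_eq_mul, add_mul,
        sum_add_distrib, mul_assoc, ← mul_sum, add_eq_left]
      simp only [mul_comm (ζ _), this, mul_zero]
    · simp [mul_apply, updateRow_ne hi]
  · obtain ⟨hx1, hx2⟩ := mem_filter.1 (mem_product.1 hx).1
    obtain ⟨hy1, hy2⟩ := mem_filter.1 (mem_product.1 hy).1
    have hx3 := (mem_filter.1 hx1).2.1
    have hy3 := (mem_filter.1 hy1).2.1
    simp only at hxy
    have e1 : x.1.updateRow k ζ = y.1.updateRow k ζ := by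
      have := congrArg (fun A : M3 F => A.updateRow k ζ) hxy
      simpa using this
    have e2 := congrArg det hxy
    rw [det_updateRow_add, det_updateRow_add, det_updateRow_smul, det_updateRow_smul,
      updateRow_eq_self, updateRow_eq_self, hx3, hy3, ← e1, add_right_inj] at e2
    have e3 : x.2 = y.2 := mul_right_cancel₀ (hx2 ▸ hc x.1 hx3) e2
    refine Prod.ext ?_ e3
    ext i j
    by_cases hi : i = k
    · subst hi
      have := congrFun (congrFun hxy i) j
      simpa [e3] using this
    · have := congrFun (congrFun hxy i) j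
      simpa [updateRow_ne hi] using this

theorem card_GL : Fintype.card F ^ 9 ≤ 4 * (univ.filter fun g : M3 F => g.det ≠ 0).card := by
  have e : (univ.filter fun g : M3 F => g.det ≠ 0).card = Nat.card (GL (Fin 3) F) := by
    rw [← Fintype.card_subtype, ← Nat.card_eq_fintype_card]
    refine Nat.card_congr ⟨fun g => GeneralLinearGroup.mkOfDetNeZero g.1 g.2,
      fun g => ⟨g.1, GeneralLinearGroup.det_ne_zero g⟩, fun g => rfl, fun g => ?_⟩
    ext; rfl
  rw [e, card_GL_field, Fin.prod_univ_three]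
  obtain ⟨k, hk⟩ : ∃ k, Fintype.card F = k + 2 := ⟨Fintype.card F - 2, by
    have := Fintype.one_lt_card (α := F); omega⟩
  simp only [hk, Fin.val_zero, Fin.val_one, Fin.val_two, pow_zero, pow_one]
  have h1 : 1 ≤ (k + 2) ^ 3 := Nat.one_le_pow _ _ (by omega)
  have h2 : k + 2 ≤ (k + 2) ^ 3 := Nat.le_self_pow (by omega) _
  have h3 : (k + 2) ^ 2 ≤ (k + 2) ^ 3 := Nat.pow_le_pow_right (by omega) (by omega)
  zify [h1, h2, h3]
  have : (0 : ℤ) ≤ k := by positivity
  ring_nf
  nlinarith [pow_nonneg this 2, pow_nonneg this 3, pow_nonneg this 4, pow_nonneg this 5,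
    pow_nonneg this 6, pow_nonneg this 7, pow_nonneg this 8, pow_nonneg this 9]

theorem card_det {κ : F} (hκ : κ ≠ 0) :
    Fintype.card F ^ 8 ≤ 4 * (univ.filter fun g : M3 F => g.det = κ).card := by
  have h1 := card_le_mul_card_image_of_maps_to (s := univ.filter fun g : M3 F => g.det ≠ 0)
    (t := univ) (f := det) (fun _ _ => mem_univ _)
    (univ.filter fun g : M3 F => g.det = κ).card fun b _ => by
      refine card_le_card_of_injOn (fun g => g.updateRow 0 ((κ / b) • g 0)) (fun g hg => ?_)
        fun g hg g' hg' h => ?_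
      · obtain ⟨a1, rfl⟩ := mem_filter.1 hg
        refine mem_filter.2 ⟨mem_univ _, ?_⟩
        rw [det_updateRow_smul, updateRow_eq_self, div_mul_cancel₀ _ (mem_filter.1 a1).2]
      · obtain ⟨a1, a2⟩ := mem_filter.1 hg
        have a3 : κ / b ≠ 0 := div_ne_zero hκ (a2 ▸ (mem_filter.1 a1).2)
        ext i j
        have := congrFun (congrFun h i) j
        by_cases hi : i = 0
        · subst hi
          simpa [a3, hκ, (a2 ▸ (mem_filter.1 a1).2 : b ≠ 0)] using this
        · simpa [updateRow_ne hi] using this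
  have h2 := card_GL (F := F)
  rw [card_univ] at h1
  refine Nat.le_of_mul_le_mul_right ?_ (Fintype.card_pos (α := F))
  rw [← pow_succ, mul_assoc]
  exact h2.trans (by omega)

end Crest.Agent.R32
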