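import Crest.Agent.R32.Fib

/-!
Row 32: an alternating trilinear form of bounded rank that does not vanish on distinct points of `F²`.
-/

set_option autoImplicit false

namespace Crest.Agent.R32

open Finset Matrix

variable {F : Type} [Field F]

/-- The matrix with the columns `x l`. -/
def cols {R : Type} (x : Fin 3 → Fin 3 → R) : M3 R := Matrix.of fun c l => x l c

@[simp] theorem cols_apply {R : Type} (x : Fin 3 → Fin 3 → R) (c l : Fin 3) :
    cols x c l = x l c := rfl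

def X0 (s : F × F) : Fin 3 → F := ![1, s.1, s.2]

abbrev DI : Type := Option (Fin 7 × Fin 7 × Fin 7)

def cub (w : F) (s : F × F) : F := s.1 ^ 3 - s.1 * s.2 ^ 2 - w * s.2 ^ 3

theorem exists_cub [Fintype F] : ∃ w : F, ∀ s, s ≠ 0 → cub w s ≠ 0 := by
  have : ¬ Function.Surjective fun x : F => x ^ 3 - x := fun h => by
    have := Finite.injective_iff_surjective.2 h (a₁ := 0) (a₂ := 1) (by simp)
    exact zero_ne_one this
  obtain ⟨w, hw⟩ := not_forall.1 this
  refine ⟨w, fun s hs h => ?_⟩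
  by_cases h2 : s.2 = 0
  · simp only [cub, h2, ne_eq, OfNat.ofNat_ne_zero, not_false_eq_true, zero_pow, mul_zero, sub_zero,
      pow_eq_zero_iff] at h
    exact hs (Prod.ext h h2)
  · refine hw ⟨s.1 / s.2, ?_⟩
    rw [cub] at h
    field_simp
    linear_combination h

theorem exists_form [Fintype F] (h6 : (6 : F) ≠ 0) (κ : DI → F) (hκ : ∀ i, κ i ≠ 0) :
    ∃ X : DI → F × F → Fin 3 → F, ∀ s : Fin 3 → F × F, Function.Injective s →
      ∑ i, κ i * (cols fun l => X i (s l)).det ≠ (cols fun l => X0 (s l)).det := by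
  obtain ⟨w, hw⟩ := exists_cub (F := F)
  set f : Fin 7 → F × F → F := fun j s => ![cub w s, -3 * s.1 ^ 2 + s.2 ^ 2,
    2 * s.1 * s.2 + 3 * w * s.2 ^ 2, 3 * s.1, -2 * s.2, -s.1 - 3 * w * s.2, -1] j with hf
  set g : Fin 7 → F × F → F := fun j s =>
    ![1, s.1, s.2, s.1 ^ 2, s.1 * s.2, s.2 ^ 2, cub w s] j with hg
  have h1 : ∀ x y, ∑ j, f j x * g j y = cub w (x - y) := fun x y => by
    simp [hf, hg, Fin.sum_univ_seven, cub]
    ring
  have h2 : ∀ x y z, ∑ i : Fin 7 × Fin 7 × Fin 7, (f i.1 x * g i.2.2 x) * (g i.1 y * f i.2.1 y) *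
      (g i.2.1 z * f i.2.2 z) = cub w (x - y) * (cub w (y - z) * cub w (z - x)) := fun x y z => by
    rw [← h1, ← h1, ← h1, sum_mul_sum, ← Fintype.sum_prod_type', sum_mul_sum,
      ← Fintype.sum_prod_type']
    exact sum_congr rfl fun i _ => by ring
  have h3 : ∀ x y, cub w (x - y) = -cub w (y - x) := fun x y => by simp [cub]; ring
  refine ⟨fun i s => i.elim ![(κ i)⁻¹, s.1, s.2] fun j => ![(κ i)⁻¹ * (f j.1 s * g j.2.2 s),
    g j.1 s * f j.2.1 s, g j.2.1 s * f j.2.2 s], fun s hs => ?_⟩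
  have e0 : κ none * (cols fun l => ![(κ none)⁻¹, (s l).1, (s l).2]).det =
      (cols fun l => X0 (s l)).det := by
    have := hκ none
    simp [det_fin_three, X0]
    field_simp
  rw [Fintype.sum_option]
  simp only [Option.elim]
  rw [e0, Ne, add_eq_left]
  set A : Fin 7 × Fin 7 × Fin 7 → F × F → F × F → F × F → F := fun i x y z =>
    (f i.1 x * g i.2.2 x) * (g i.1 y * f i.2.1 y) * (g i.2.1 z * f i.2.2 z) with hA
  have e1 : ∀ i : Fin 7 × Fin 7 × Fin 7, κ (some i) * (cols fun l =>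
      ![(κ (some i))⁻¹ * (f i.1 (s l) * g i.2.2 (s l)), g i.1 (s l) * f i.2.1 (s l),
        g i.2.1 (s l) * f i.2.2 (s l)]).det =
      A i (s 0) (s 1) (s 2) - A i (s 0) (s 2) (s 1) - A i (s 1) (s 0) (s 2) +
        A i (s 1) (s 2) (s 0) + A i (s 2) (s 0) (s 1) - A i (s 2) (s 1) (s 0) := fun i => by
    have := hκ (some i)
    simp only [det_fin_three, cols_apply, hA, cons_val_zero, cons_val_one, cons_val_two,
      head_cons, tail_cons]
    field_simp
  simp only [e1, sum_add_distrib, sum_sub_distrib, hA, h2]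
  rw [h3 (s 0) (s 2), h3 (s 2) (s 1), h3 (s 1) (s 0)]
  have a1 := hw _ (sub_ne_zero.2 (hs.ne (by decide : (0 : Fin 3) ≠ 1)))
  have a2 := hw _ (sub_ne_zero.2 (hs.ne (by decide : (1 : Fin 3) ≠ 2)))
  have a3 := hw _ (sub_ne_zero.2 (hs.ne (by decide : (2 : Fin 3) ≠ 0)))
  intro h
  exact mul_ne_zero h6 (mul_ne_zero a1 (mul_ne_zero a2 a3)) (by linear_combination h)

end Crest.Agent.R32
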