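import Mathlib

/-!
Row 32 (Heilbronn lower bound): counting integer points on planes through the origin in `ℤ³`.
-/

set_option autoImplicit false

namespace Crest.Agent.R32

open Finset Matrix

abbrev V : Type := Fin 3 → ℤ

/-- Sup norm. -/
def nm (r : V) : ℕ := univ.sup fun c => (r c).natAbs

noncomputable def box (ρ : ℕ) : Finset V := Fintype.piFinset fun _ => Icc (-(ρ : ℤ)) ρ

def Prim (n : V) : Prop := ∃ v : V, v ⬝ᵥ n = 1

theorem le_nm (r : V) (c : Fin 3) : |r c| ≤ (nm r : ℤ) := by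
  rw [← Int.natCast_natAbs]
  exact_mod_cast le_sup (f := fun c => (r c).natAbs) (mem_univ c)

theorem nm_le {r : V} {ρ : ℕ} : nm r ≤ ρ ↔ ∀ c, |r c| ≤ (ρ : ℤ) := by
  constructor
  · intro h c
    exact (le_nm r c).trans (by exact_mod_cast h)
  · intro h
    refine Finset.sup_le fun c _ => ?_
    have := h c
    rw [← Int.natCast_natAbs] at this
    exact_mod_cast this

theorem exists_nm (r : V) : ∃ c, |r c| = (nm r : ℤ) := by
  obtain ⟨c, -, hc⟩ := exists_mem_eq_sup univ univ_nonempty fun c => (r c).natAbs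
  exact ⟨c, by rw [nm, hc, Int.natCast_natAbs]⟩

theorem mem_box {r : V} {ρ : ℕ} : r ∈ box ρ ↔ nm r ≤ ρ := by
  simp [box, nm_le, abs_le]

theorem card_box (ρ : ℕ) : (box ρ).card = (2 * ρ + 1) ^ 3 := by
  rw [box, Fintype.card_piFinset]
  simp only [Int.card_Icc, prod_const, card_univ, Fintype.card_fin]
  congr 1
  omega

theorem nm_pos {r : V} (h : r ≠ 0) : 0 < nm r := by
  by_contra h0
  have : nm r ≤ 0 := by omega
  rw [nm_le] at this
  exact h (funext fun c => by simpa using this c)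

theorem Prim.ne_zero {n : V} (h : Prim n) : n ≠ 0 := by
  rintro rfl
  obtain ⟨v, hv⟩ := h
  simp at hv

theorem nm_sub_le {r r' : V} {ρ : ℕ} (h : nm r ≤ ρ) (h' : nm r' ≤ ρ) : nm (r - r') ≤ 2 * ρ := by
  rw [nm_le] at *
  intro c
  have := abs_sub (r c) (r' c)
  have h1 := h c
  have h2 := h' c
  push_cast
  simp only [Pi.sub_apply]
  linarith

theorem abs_det2_le {a b c d : ℤ} {x y : ℕ} (ha : |a| ≤ x) (hb : |b| ≤ y) (hc : |c| ≤ x)
    (hd : |d| ≤ y) : |a * b - c * d| ≤ ((2 * x * y : ℕ) : ℤ) := by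
  have h1 : |a * b| ≤ x * y := by
    rw [abs_mul]; exact mul_le_mul ha hb (abs_nonneg _) (by positivity)
  have h2 : |c * d| ≤ x * y := by
    rw [abs_mul]; exact mul_le_mul hc hd (abs_nonneg _) (by positivity)
  have := abs_sub (a * b) (c * d)
  push_cast
  linarith

theorem nm_cross_le (r r' : V) : nm (r ⨯₃ r') ≤ 2 * nm r * nm r' := by
  rw [nm_le]
  intro c
  fin_cases c <;> simp only [cross_apply] <;>
    exact abs_det2_le (le_nm _ _) (le_nm _ _) (le_nm _ _) (le_nm _ _)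

theorem nm_smul (δ : ℤ) (n : V) : (nm (δ • n) : ℤ) = |δ| * nm n := by
  apply le_antisymm
  · obtain ⟨c, hc⟩ := exists_nm (δ • n)
    rw [← hc, Pi.smul_apply, smul_eq_mul, abs_mul]
    exact mul_le_mul_of_nonneg_left (le_nm _ _) (abs_nonneg _)
  · obtain ⟨c, hc⟩ := exists_nm n
    rw [← hc, ← abs_mul]
    exact le_nm (δ • n) c

theorem exists_prim {w : V} (hw : w ≠ 0) : ∃ (δ : ℤ) (n : V), 0 < δ ∧ Prim n ∧ w = δ • n := by
  obtain ⟨g, hg, hg1⟩ := extract_gcd w univ_nonempty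
  obtain ⟨v, hv⟩ := gcd_eq_sum_mul univ g
  have h0 : univ.gcd w ≠ 0 := fun h => hw (funext fun c => by simpa [h] using hg c (mem_univ c))
  have h1 : 0 ≤ univ.gcd w := by
    rw [← Finset.normalize_gcd, ← Int.abs_eq_normalize]; exact abs_nonneg _
  refine ⟨univ.gcd w, g, lt_of_le_of_ne h1 h0.symm, ⟨v, ?_⟩, funext fun c => hg c (mem_univ c)⟩
  rw [dotProduct, ← hg1, hv]
  exact sum_congr rfl fun c _ => mul_comm _ _

theorem cross_eq_smul {n r r' v : V} (hv : v ⬝ᵥ n = 1) (h : n ⬝ᵥ r = 0) (h' : n ⬝ᵥ r' = 0) :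
    r ⨯₃ r' = (v ⬝ᵥ r ⨯₃ r') • n := by
  simp only [dotProduct, Fin.sum_univ_three] at hv h h'
  funext c
  fin_cases c <;> simp [cross_apply, dotProduct, Fin.sum_univ_three]
  · linear_combination (-(r 1 * r' 2 - r 2 * r' 1)) * hv + (v 1 * r' 2 - v 2 * r' 1) * h -
      (v 1 * r 2 - v 2 * r 1) * h'
  · linear_combination (-(r 2 * r' 0 - r 0 * r' 2)) * hv + (v 2 * r' 0 - v 0 * r' 2) * h -
      (v 2 * r 0 - v 0 * r 2) * h'
  · linear_combination (-(r 0 * r' 1 - r 1 * r' 0)) * hv + (v 0 * r' 1 - v 1 * r' 0) * h -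
      (v 0 * r 1 - v 1 * r 0) * h'

theorem cross_eq_zero_iff {R : Type} [CommRing R] {a b : Fin 3 → R} :
    a ⨯₃ b = 0 ↔ ∀ i j, a i * b j = a j * b i := by
  constructor
  · intro h i j
    have h0 := congrFun h 0
    have h1 := congrFun h 1
    have h2 := congrFun h 2
    simp [cross_apply] at h0 h1 h2
    fin_cases i <;> fin_cases j <;> simp <;> first | linear_combination h0 | linear_combination h1 | linear_combination h2 | linear_combination -h0 | linear_combination -h1 | linear_combination -h2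
  · intro h
    funext c
    fin_cases c <;> simp [cross_apply, sub_eq_zero] <;> exact h _ _

theorem par_trans {r₀ r r' : V} (h0 : r₀ ≠ 0) (h : r₀ ⨯₃ r = 0) (h' : r₀ ⨯₃ r' = 0) :
    r ⨯₃ r' = 0 := by
  rw [cross_eq_zero_iff] at *
  obtain ⟨c, hc⟩ := Function.ne_iff.1 h0
  intro i j
  apply mul_left_cancel₀ hc
  simp only [Pi.zero_apply] at hc
  apply mul_left_cancel₀ hc
  linear_combination (r₀ c * r' j) * h c i + (r₀ i * r c) * h' c j - (r₀ c * r' i) * h c j -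
    (r₀ j * r c) * h' c i

/-- Points of a lattice on a plane in a box. -/
theorem card_plane {Λ : AddSubgroup V} {n : V} (hn : Prim n) {γ : ℕ} (hγ0 : 0 < γ)
    (hγ : ∀ r ∈ Λ, ∀ r' ∈ Λ, n ⬝ᵥ r = 0 → n ⬝ᵥ r' = 0 → ∀ δ : ℤ, r ⨯₃ r' = δ • n → (γ : ℤ) ∣ δ)
    {ρ : ℕ} {T : Finset V} (hT : ∀ r ∈ T, nm r ≤ ρ ∧ r ∈ Λ ∧ n ⬝ᵥ r = 0)
    {r₁ r₂ : V} (h₁ : nm r₁ ≤ ρ ∧ r₁ ∈ Λ ∧ n ⬝ᵥ r₁ = 0) (h₂ : nm r₂ ≤ ρ ∧ r₂ ∈ Λ ∧ n ⬝ᵥ r₂ = 0)
    (h12 : r₁ ⨯₃ r₂ ≠ 0) : T.card * (γ * nm n) ≤ 18 * ρ ^ 2 := by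
  classical
  obtain ⟨v, hv⟩ := hn
  have hn0 : 0 < nm n := nm_pos (Prim.ne_zero ⟨v, hv⟩)
  have hr₁ : r₁ ≠ 0 := by rintro rfl; simp at h12
  have hex : ∃ k : ℕ, ∃ r, r ≠ 0 ∧ r ∈ Λ ∧ n ⬝ᵥ r = 0 ∧ nm r = k := ⟨_, r₁, hr₁, h₁.2.1, h₁.2.2, rfl⟩
  obtain ⟨r₀, h00, h0Λ, h0n, h0⟩ := Nat.find_spec hex
  have hmin : ∀ r, r ≠ 0 → r ∈ Λ → n ⬝ᵥ r = 0 → nm r₀ ≤ nm r := fun r a b c =>
    h0 ▸ Nat.find_min' hex ⟨r, a, b, c, rfl⟩
  set l := nm r₀ with hl
  have hl0 : 0 < l := nm_pos h00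
  have hlρ : l ≤ ρ := (hmin r₁ hr₁ h₁.2.1 h₁.2.2).trans h₁.1
  obtain ⟨c, hc⟩ := exists_nm r₀
  set a := 2 * l * ρ / (γ * nm n) with ha
  set b := 2 * ρ / l with hb
  have hδ : ∀ r, nm r ≤ ρ ∧ r ∈ Λ ∧ n ⬝ᵥ r = 0 → ∃ k : ℤ, v ⬝ᵥ r₀ ⨯₃ r = γ * k ∧ |k| ≤ a := by
    intro r hr
    have e := cross_eq_smul hv h0n hr.2.2
    obtain ⟨k, hk⟩ := hγ r₀ h0Λ r hr.2.1 h0n hr.2.2 _ e
    refine ⟨k, hk, ?_⟩
    have e2 := nm_smul (v ⬝ᵥ r₀ ⨯₃ r) n
    rw [← e, hk, abs_mul, Nat.abs_cast, ← Int.natCast_natAbs] at e2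
    have e3 : γ * k.natAbs * nm n ≤ 2 * l * ρ := by
      have e4 : nm (r₀ ⨯₃ r) = γ * k.natAbs * nm n := by exact_mod_cast e2
      rw [← e4]
      exact (nm_cross_le _ _).trans (Nat.mul_le_mul_left _ hr.1)
    rw [← Int.natCast_natAbs]
    have : k.natAbs ≤ a := (Nat.le_div_iff_mul_le (by positivity)).2 (by nlinarith)
    exact_mod_cast this
  have ha1 : 1 ≤ a := by
    have : ∃ r, (nm r ≤ ρ ∧ r ∈ Λ ∧ n ⬝ᵥ r = 0) ∧ r₀ ⨯₃ r ≠ 0 := by
      by_contra hcon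
      push Not at hcon
      exact h12 (par_trans h00 (hcon _ h₁) (hcon _ h₂))
    obtain ⟨r, hr, hr'⟩ := this
    obtain ⟨k, hk, hk'⟩ := hδ r hr
    have hk0 : k ≠ 0 := by
      rintro rfl
      apply hr'
      rw [cross_eq_smul hv h0n hr.2.2, hk]
      simp
    have := Int.one_le_abs hk0
    omega
  have hb2 : 2 ≤ b := (Nat.le_div_iff_mul_le hl0).2 (by omega)
  have hcard : T.card ≤ (Icc (-(a : ℤ)) a ×ˢ Icc (0 : ℤ) b).card := by
    refine card_le_card_of_injOn (fun r => ((v ⬝ᵥ r₀ ⨯₃ r) / γ, (r c + ρ) / l)) ?_ ?_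
    · intro r hr
      obtain ⟨k, hk, hk'⟩ := hδ r (hT r hr)
      have h1 := abs_le.1 (nm_le.1 (hT r hr).1 c)
      simp only [coe_product, coe_Icc, Set.mem_prod, Set.mem_Icc]
      rw [hk, Int.mul_ediv_cancel_left _ (by exact_mod_cast hγ0.ne')]
      refine ⟨abs_le.1 hk', Int.ediv_nonneg (by linarith [h1.1]) (by positivity), ?_⟩
      rw [hb]
      push_cast
      exact Int.ediv_le_ediv (by exact_mod_cast hl0) (by linarith [h1.2])
    · intro r hr r' hr' h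
      simp only [Prod.mk.injEq] at h
      obtain ⟨k, hk, -⟩ := hδ r (hT r hr)
      obtain ⟨k', hk', -⟩ := hδ r' (hT r' hr')
      have hγ' : (γ : ℤ) ≠ 0 := by exact_mod_cast hγ0.ne'
      rw [hk, hk', Int.mul_ediv_cancel_left _ hγ', Int.mul_ediv_cancel_left _ hγ'] at h
      have e : r₀ ⨯₃ (r - r') = 0 := by
        rw [map_sub, cross_eq_smul hv h0n (hT r hr).2.2, cross_eq_smul hv h0n (hT r' hr').2.2,
          hk, hk', h.1, sub_self]
      by_contra hne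
      have h3 := hmin (r - r') (sub_ne_zero.2 hne) (Λ.sub_mem (hT r hr).2.1 (hT r' hr').2.1)
        (by rw [dotProduct_sub, (hT r hr).2.2, (hT r' hr').2.2, sub_zero])
      obtain ⟨j, hj⟩ := exists_nm (r - r')
      have h4 := congrArg abs (cross_eq_zero_iff.1 e c j)
      rw [abs_mul, abs_mul, hc, hj] at h4
      have h5 := le_nm r₀ j
      have hl' : (0 : ℤ) < l := by exact_mod_cast hl0
      have h6 : (l : ℤ) ≤ |(r - r') c| := by
        have h3' : (l : ℤ) ≤ nm (r - r') := by exact_mod_cast h3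
        have : (l : ℤ) * l ≤ l * |(r - r') c| := by
          calc (l : ℤ) * l ≤ l * nm (r - r') := by gcongr
            _ = |r₀ j| * |(r - r') c| := h4
            _ ≤ _ := by gcongr
        exact le_of_mul_le_mul_left this hl'
      have e1 := Int.mul_ediv_add_emod (r c + ρ) l
      have e2 := Int.mul_ediv_add_emod (r' c + ρ) l
      have e3 := Int.emod_nonneg (r c + ρ) hl'.ne'
      have e4 := Int.emod_nonneg (r' c + ρ) hl'.ne'
      have e5 := Int.emod_lt_of_pos (r c + ρ) hl'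
      have e6 := Int.emod_lt_of_pos (r' c + ρ) hl'
      rw [h.2] at e1
      have : |(r - r') c| < l := by
        rw [Pi.sub_apply, abs_lt]; constructor <;> linarith
      linarith
  rw [card_product, Int.card_Icc, Int.card_Icc] at hcard
  have e1 : (a + 1 - -(a : ℤ)).toNat = 2 * a + 1 := by omega
  have e2 : (b + 1 - (0 : ℤ)).toNat = b + 1 := by omega
  rw [e1, e2] at hcard
  have f1 : a * (γ * nm n) ≤ 2 * l * ρ := Nat.div_mul_le_self _ _
  have f2 : b * l ≤ 2 * ρ := Nat.div_mul_le_self _ _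
  have f3 : 2 * T.card ≤ 9 * (a * b) := by nlinarith
  have f4 : a * b * (γ * nm n) ≤ 4 * ρ ^ 2 := by
    calc a * b * (γ * nm n) = b * (a * (γ * nm n)) := by ring
      _ ≤ b * (2 * l * ρ) := Nat.mul_le_mul_left _ f1
      _ = (b * l) * (2 * ρ) := by ring
      _ ≤ (2 * ρ) * (2 * ρ) := Nat.mul_le_mul_right _ f2
      _ = _ := by ring
  nlinarith

end Crest.Agent.R32
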