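import Crest.Agent.R32.Lat

/-!
Row 32: periodic averages, dyadic sums, and counts of integer matrices with rows in a lattice.
-/

set_option autoImplicit false

namespace Crest.Agent.R32

open Finset Matrix

def red (q : ℕ) (n : V) : Fin 3 → ZMod q := fun c => (n c : ZMod q)

theorem sum_box_periodic {ι : Type} [Fintype ι] [DecidableEq ι] (q : ι → ℕ) [∀ i, NeZero (q i)]
    (hq : Pairwise fun i j => Nat.Coprime (q i) (q j)) (φ : ∀ i, (Fin 3 → ZMod (q i)) → ℝ)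
    (hφ : ∀ i w, 0 ≤ φ i w) (Y : ℕ) :
    ∑ n ∈ box Y, ∏ i, φ i (red (q i) n) ≤
      (2 * Y / (∏ i, q i : ℕ) + 1 : ℝ) ^ 3 * ∏ i, ∑ w, φ i w := by
  classical
  set m := ∏ i, q i with hm
  have hm0 : 0 < m := prod_pos fun i _ => Nat.pos_of_neZero _
  have hm0' : (0 : ℤ) < m := by exact_mod_cast hm0
  have hfib : ∀ ω : ∀ i, Fin 3 → ZMod (q i),
      (((box Y).filter fun n => (fun i => red (q i) n) = ω).card : ℝ) ≤ (2 * Y / m + 1 : ℝ) ^ 3 := by
    intro ω
    have h1 : ((box Y).filter fun n => (fun i => red (q i) n) = ω).card ≤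
        (Fintype.piFinset fun _ : Fin 3 => Icc (0 : ℤ) ((2 * Y / m : ℕ) : ℤ)).card := by
      refine card_le_card_of_injOn (fun n c => (n c + Y) / m) ?_ ?_
      · intro n hn
        have h2 := nm_le.1 (mem_box.1 (mem_filter.1 hn).1)
        simp only [Fintype.coe_piFinset, coe_Icc, Set.mem_pi, Set.mem_univ, Set.mem_Icc,
          true_imp_iff]
        intro c
        have h3 := abs_le.1 (h2 c)
        refine ⟨Int.ediv_nonneg (by linarith [h3.1]) hm0'.le, ?_⟩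
        push_cast
        exact Int.ediv_le_ediv hm0' (by linarith [h3.2])
      · intro n hn n' hn' h
        funext c
        have h1 := congrFun h c
        have h2 : (m : ℤ) ∣ n' c - n c := by
          rw [hm, Nat.cast_prod]
          refine Fintype.prod_dvd_of_coprime (fun i j hij => Nat.isCoprime_iff_coprime.2 (hq hij))
            fun i => ?_
          have h3 := congrFun (congrFun ((mem_filter.1 hn).2.trans (mem_filter.1 hn').2.symm) i) c
          exact (ZMod.intCast_eq_intCast_iff_dvd_sub _ _ _).1 h3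
        have h4 : (n c + Y) % m = (n' c + Y) % m :=
          Int.modEq_iff_dvd.2 (by rwa [add_sub_add_right_eq_sub])
        have e1 := Int.mul_ediv_add_emod (n c + Y) m
        have e2 := Int.mul_ediv_add_emod (n' c + Y) m
        simp only at h1
        rw [h1, h4] at e1
        linarith
    rw [Fintype.card_piFinset] at h1
    simp only [Int.card_Icc, prod_const, card_univ, Fintype.card_fin] at h1
    have e : (((2 * Y / m : ℕ) : ℤ) + 1 - 0).toNat = 2 * Y / m + 1 := by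
      generalize 2 * Y / m = k; omega
    rw [e] at h1
    calc _ ≤ (((2 * Y / m + 1) ^ 3 : ℕ) : ℝ) := by exact_mod_cast h1
      _ ≤ _ := by
        push_cast
        gcongr
        exact_mod_cast Nat.cast_div_le (α := ℝ) (m := 2 * Y) (n := m)
  rw [← sum_fiberwise_of_maps_to (t := univ) (g := fun n i => red (q i) n) fun _ _ => mem_univ _,
    Fintype.prod_sum, mul_sum]
  refine sum_le_sum fun ω _ => ?_
  rw [sum_congr rfl (g := fun _ => ∏ i, φ i (ω i)) fun n hn => by rw [← (mem_filter.1 hn).2],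
    sum_const, nsmul_eq_mul]
  exact mul_le_mul_of_nonneg_right (hfib ω) (prod_nonneg fun i _ => hφ _ _)

theorem sum_dyadic {φ : V → ℝ} (hφ : ∀ n, 0 ≤ φ n) {A : ℝ} (hA : 0 ≤ A) {m₁ : ℕ}
    (h : ∀ Y : ℕ, 0 < Y → m₁ ≤ Y → ∑ n ∈ box Y, φ n ≤ A * Y ^ 3) {Z : ℕ} {S : Finset V}
    (hS : ∀ n ∈ S, n ≠ 0 ∧ m₁ ≤ nm n ∧ nm n ≤ Z) :
    ∑ n ∈ S, φ n / (nm n : ℝ) ^ 3 ≤ 8 * A * (Nat.log 2 Z + 1) := by
  classical
  rw [← sum_fiberwise_of_maps_to (t := range (Nat.log 2 Z + 1)) (g := fun n => Nat.log 2 (nm n))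
    fun n hn => mem_range.2 (Nat.lt_succ_of_le (Nat.log_mono_right (hS n hn).2.2))]
  refine (sum_le_card_nsmul _ _ (8 * A) fun k _ => ?_).trans (by simp [mul_comm])
  rcases (S.filter fun n => Nat.log 2 (nm n) = k).eq_empty_or_nonempty with he | ⟨n₀, hn₀⟩
  · rw [he, sum_empty]; positivity
  have hlt : ∀ n ∈ S.filter fun n => Nat.log 2 (nm n) = k, 2 ^ k ≤ nm n ∧ nm n ≤ 2 ^ (k + 1) :=
    fun n hn => by
      obtain ⟨h1, rfl⟩ := mem_filter.1 hn
      exact ⟨Nat.pow_log_le_self 2 (nm_pos (hS n h1).1).ne',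
        (Nat.lt_pow_succ_log_self one_lt_two _).le⟩
  have h1 := h (2 ^ (k + 1)) (by positivity)
    ((hS n₀ (mem_filter.1 hn₀).1).2.1.trans (hlt n₀ hn₀).2)
  calc _ ≤ ∑ n ∈ S.filter fun n => Nat.log 2 (nm n) = k, φ n / ((2 : ℝ) ^ k) ^ 3 := by
        refine sum_le_sum fun n hn => div_le_div_of_nonneg_left (hφ n) (by positivity) ?_
        gcongr
        exact_mod_cast (hlt n hn).1
    _ ≤ (∑ n ∈ box (2 ^ (k + 1)), φ n) / ((2 : ℝ) ^ k) ^ 3 := by
        rw [← sum_div]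
        gcongr with n hn
        · exact fun n _ _ => hφ n
        · exact fun n hn => mem_box.2 (hlt n hn).2
    _ ≤ _ := by
        rw [div_le_iff₀ (by positivity)]
        refine h1.trans (le_of_eq ?_)
        push_cast
        ring

theorem det_eq_cross {R : Type} [CommRing R] (M : Matrix (Fin 3) (Fin 3) R) :
    M.det = (M 0 ⨯₃ M 1) ⬝ᵥ M 2 := by
  simp [det_fin_three, cross_apply, dotProduct, Fin.sum_univ_three]
  ring

section counts
variable {Λ : AddSubgroup V} {γ : V → ℕ}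

/-- The divisibility property of cross products of lattice vectors on a plane. -/
def Gam (Λ : AddSubgroup V) (γ : V → ℕ) : Prop :=
  ∀ n, Prim n → 0 < γ n ∧ ∀ r ∈ Λ, ∀ r' ∈ Λ, n ⬝ᵥ r = 0 → n ⬝ᵥ r' = 0 → ∀ δ : ℤ,
    r ⨯₃ r' = δ • n → (γ n : ℤ) ∣ δ

theorem card_plane' (hγ : Gam Λ γ) {n : V} (hn : Prim n)
    {ρ : ℕ} {T : Finset V} (hT : ∀ r ∈ T, nm r ≤ ρ ∧ r ∈ Λ ∧ n ⬝ᵥ r = 0)
    {r₁ r₂ : V} (h₁ : nm r₁ ≤ ρ ∧ r₁ ∈ Λ ∧ n ⬝ᵥ r₁ = 0) (h₂ : nm r₂ ≤ ρ ∧ r₂ ∈ Λ ∧ n ⬝ᵥ r₂ = 0)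
    (h12 : r₁ ⨯₃ r₂ ≠ 0) : (T.card : ℝ) ≤ 18 * ρ ^ 2 / (γ n * nm n) := by
  have h := card_plane hn (hγ n hn).1 (hγ n hn).2 hT h₁ h₂ h12
  have h1 := (hγ n hn).1
  have h2 := nm_pos hn.ne_zero
  rw [le_div_iff₀ (by positivity)]
  exact_mod_cast h

theorem dot_eq_zero_of_cross {r r' n : V} {δ : ℤ} (hδ : 0 < δ) (h : r ⨯₃ r' = δ • n) :
    n ⬝ᵥ r = 0 ∧ n ⬝ᵥ r' = 0 := by
  have h1 := dot_self_cross r r'
  have h2 := dot_cross_self r r'
  rw [h, dotProduct_smul, smul_eq_mul, mul_eq_zero, dotProduct_comm] at h1 h2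
  exact ⟨h1.resolve_left hδ.ne', h2.resolve_left hδ.ne'⟩

theorem nm_le_of_cross {r r' n : V} {δ : ℤ} (hδ : 0 < δ) (h : r ⨯₃ r' = δ • n) {ρ : ℕ}
    (h1 : nm r ≤ ρ) (h2 : nm r' ≤ ρ) : nm n ≤ 2 * ρ ^ 2 := by
  have a1 := nm_smul δ n
  rw [← h, abs_of_pos hδ] at a1
  have a2 : nm (r ⨯₃ r') ≤ 2 * ρ ^ 2 := (nm_cross_le r r').trans (by
    rw [sq, ← mul_assoc]; gcongr)
  have a3 : (nm n : ℤ) ≤ nm (r ⨯₃ r') := by
    rw [a1]; exact le_mul_of_one_le_left (by positivity) hδ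
  omega

open Classical in
theorem card_det_ne (hγ : Gam Λ γ) {ρ m : ℕ} {t : ℤ} (ht : t ≠ 0) (htm : |t| ≤ m)
    (S : Finset (Matrix (Fin 3) (Fin 3) ℤ))
    (hS : ∀ M ∈ S, (∀ i, nm (M i) ≤ ρ ∧ M i ∈ Λ) ∧ M.det = t) :
    (S.card : ℝ) ≤ ∑ n ∈ (box (2 * ρ ^ 2)).filter (fun n => Prim n ∧ m ≤ nm n),
      (72 * ρ ^ 2 / (γ n * nm n) : ℝ) ^ 3 +
      (2 * m + 1) ^ 3 * (m * (72 * ρ ^ 2) ^ 2 * (2 * ρ + 1)) := by
  have hex : ∀ M : Matrix (Fin 3) (Fin 3) ℤ, ∃ (δ : ℤ) (n : V), M ∈ S →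
      0 < δ ∧ Prim n ∧ M 0 ⨯₃ M 1 = δ • n := fun M => by
    by_cases hM : M ∈ S
    · have : M 0 ⨯₃ M 1 ≠ 0 := fun h => ht (by rw [← (hS M hM).2, det_eq_cross, h, zero_dotProduct])
      obtain ⟨δ, n, h⟩ := exists_prim this
      exact ⟨δ, n, fun _ => h⟩
    · exact ⟨0, 0, fun h => absurd h hM⟩
  choose δ ν hν using hex
  set T : V → Finset V := fun n => (box (2 * ρ)).filter fun r => r ∈ Λ ∧ n ⬝ᵥ r = 0 with hT
  have hTm : ∀ n r, r ∈ T n ↔ nm r ≤ 2 * ρ ∧ r ∈ Λ ∧ n ⬝ᵥ r = 0 := fun n r => by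
    simp [hT, mem_box]
  have h01 : ∀ M ∈ S, M 0 ∈ T (ν M) ∧ M 1 ∈ T (ν M) := fun M hM => by
    have := dot_eq_zero_of_cross (hν M hM).1 (hν M hM).2.2
    have a0 := (hS M hM).1 0
    have a1 := (hS M hM).1 1
    exact ⟨(hTm _ _).2 ⟨by omega, a0.2, this.1⟩, (hTm _ _).2 ⟨by omega, a1.2, this.2⟩⟩
  have hcr : ∀ M ∈ S, M 0 ⨯₃ M 1 ≠ 0 := fun M hM h =>
    ht (by rw [← (hS M hM).2, det_eq_cross, h, zero_dotProduct])
  have hTc : ∀ M ∈ S, ((T (ν M)).card : ℝ) ≤ 72 * ρ ^ 2 / (γ (ν M) * nm (ν M)) := fun M hM => by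
    refine (card_plane' hγ (hν M hM).2.1 (fun r hr => (hTm _ _).1 hr) ((hTm _ _).1 (h01 M hM).1)
      ((hTm _ _).1 (h01 M hM).2) (hcr M hM)).trans (le_of_eq ?_)
    push_cast; ring
  have hdet : ∀ M ∈ S, t = δ M * (ν M ⬝ᵥ M 2) := fun M hM => by
    rw [← (hS M hM).2, det_eq_cross, (hν M hM).2.2, smul_dotProduct, smul_eq_mul]
  have h3 : ∀ (n : V) (S' : Finset (Matrix (Fin 3) (Fin 3) ℤ)), (∀ M ∈ S', M ∈ S ∧ ν M = n) →
      (∀ M ∈ S', ∀ M' ∈ S', M 0 = M' 0 ∧ M 1 = M' 1) → S'.card ≤ (T n).card := by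
    intro n S' h1 h2
    rcases S'.eq_empty_or_nonempty with rfl | ⟨M₀, hM₀⟩
    · simp
    refine card_le_card_of_injOn (fun M => M 2 - M₀ 2) (fun M hM => ?_) fun M hM M' hM' h => ?_
    · have a := (hS M (h1 M hM).1).1 2
      have a' := (hS M₀ (h1 M₀ hM₀).1).1 2
      refine (hTm _ _).2 ⟨nm_sub_le a.1 a'.1, Λ.sub_mem a.2 a'.2, ?_⟩
      have b : (M 0 ⨯₃ M 1) ⬝ᵥ (M 2 - M₀ 2) = 0 := by
        rw [dotProduct_sub, ← det_eq_cross, (h2 M hM M₀ hM₀).1, (h2 M hM M₀ hM₀).2, ← det_eq_cross,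
          (hS M (h1 M hM).1).2, (hS M₀ (h1 M₀ hM₀).1).2, sub_self]
      rw [(hν M (h1 M hM).1).2.2, smul_dotProduct, smul_eq_mul, (h1 M hM).2] at b
      exact (mul_eq_zero.1 b).resolve_left (hν M (h1 M hM).1).1.ne'
    · funext i
      fin_cases i
      · exact (h2 M hM M' hM').1
      · exact (h2 M hM M' hM').2
      · exact sub_left_injective h
  rw [card_eq_sum_card_fiberwise (f := ν) (t := (box (2 * ρ ^ 2)).filter Prim) fun M hM =>
    mem_filter.2 ⟨mem_box.2 (nm_le_of_cross (hν M hM).1 (hν M hM).2.2 ((hS M hM).1 0).1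
      ((hS M hM).1 1).1), (hν M hM).2.1⟩, Nat.cast_sum,
    ← sum_filter_add_sum_filter_not _ fun n => m ≤ nm n, filter_filter]
  refine add_le_add (sum_le_sum fun n _ => ?_) ?_
  · rcases (S.filter fun M => ν M = n).eq_empty_or_nonempty with he | ⟨M₀, hM₀⟩
    · rw [he, card_empty, Nat.cast_zero]; positivity
    have a1 := card_le_mul_card_image_of_maps_to (s := S.filter fun M => ν M = n)
      (t := T n ×ˢ T n) (f := fun M => (M 0, M 1)) (fun M hM => by
        obtain ⟨h1, rfl⟩ := mem_filter.1 hM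
        exact mem_product.2 (h01 M h1)) (T n).card fun b _ =>
      h3 n _ (fun M hM => mem_filter.1 (mem_filter.1 hM).1) fun M hM M' hM' =>
        Prod.mk.inj ((mem_filter.1 hM).2.trans (mem_filter.1 hM').2.symm)
    have a2 := hTc M₀ (mem_filter.1 hM₀).1
    rw [(mem_filter.1 hM₀).2] at a2
    rw [card_product] at a1
    calc _ ≤ ((T n).card : ℝ) ^ 3 := by
          rw [pow_three]; exact_mod_cast a1
      _ ≤ _ := by gcongr
  · refine (sum_le_card_nsmul _ _ ((m : ℝ) * (72 * ρ ^ 2) ^ 2 * (2 * ρ + 1)) fun n hn => ?_).trans ?_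
    · rcases (S.filter fun M => ν M = n).eq_empty_or_nonempty with he | ⟨M₀, hM₀⟩
      · rw [he, card_empty, Nat.cast_zero]; positivity
      have hc : ∀ r : V, ∃ c, r ≠ 0 → r c ≠ 0 := fun r => by
        by_cases hr : r = 0
        · exact ⟨0, fun h => absurd hr h⟩
        · obtain ⟨c, hc⟩ := Function.ne_iff.1 hr
          exact ⟨c, fun _ => hc⟩
      choose c hc using hc
      have a1 := card_le_mul_card_image_of_maps_to (s := S.filter fun M => ν M = n)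
        (t := T n ×ˢ Icc (1 : ℤ) m ×ˢ Icc (-(ρ : ℤ)) ρ) (f := fun M => (M 0, δ M, M 1 (c (M 0))))
        (fun M hM => by
          obtain ⟨h1, rfl⟩ := mem_filter.1 hM
          refine mem_product.2 ⟨(h01 M h1).1, mem_product.2 ⟨mem_Icc.2 ⟨(hν M h1).1, ?_⟩,
            mem_Icc.2 (abs_le.1 (nm_le.1 ((hS M h1).1 1).1 _))⟩⟩
          exact (Int.le_of_dvd (abs_pos.2 ht) ((dvd_abs _ _).2 ⟨_, hdet M h1⟩)).trans htm)
        (T n).card fun b _ =>
        h3 n _ (fun M hM => mem_filter.1 (mem_filter.1 hM).1) fun M hM M' hM' => by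
          have e := (mem_filter.1 hM).2.trans (mem_filter.1 hM').2.symm
          simp only [Prod.mk.injEq] at e
          obtain ⟨e1, e2, e3⟩ := e
          obtain ⟨b1, b2⟩ := mem_filter.1 (mem_filter.1 hM).1
          obtain ⟨b1', b2'⟩ := mem_filter.1 (mem_filter.1 hM').1
          refine ⟨e1, ?_⟩
          have b3 : M 0 ⨯₃ (M 1 - M' 1) = 0 := by
            rw [map_sub, (hν M b1).2.2, e1, (hν M' b1').2.2, e2, b2, b2', sub_self]
          have b4 : M 0 ≠ 0 := fun h => hcr M b1 (by rw [h]; simp)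
          funext j
          have b5 := cross_eq_zero_iff.1 b3 (c (M 0)) j
          rw [← e1] at e3
          simp only [Pi.sub_apply, e3, sub_self, mul_zero, mul_eq_zero] at b5
          exact sub_eq_zero.1 (b5.resolve_left (hc _ b4))
      have a2 := hTc M₀ (mem_filter.1 hM₀).1
      have hp := (hν M₀ (mem_filter.1 hM₀).1).2.1
      rw [(mem_filter.1 hM₀).2] at a2 hp
      have a3 : ((T n).card : ℝ) ≤ 72 * ρ ^ 2 := a2.trans (div_le_self (by positivity) (by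
        have b1 : (1 : ℝ) ≤ γ n := by exact_mod_cast (hγ n hp).1
        have b2 : (1 : ℝ) ≤ nm n := by exact_mod_cast nm_pos hp.ne_zero
        exact one_le_mul_of_one_le_of_one_le b1 b2))
      rw [card_product, card_product, Int.card_Icc, Int.card_Icc] at a1
      have e1 : ((m : ℤ) + 1 - 1).toNat = m := by omega
      have e2 : ((ρ : ℤ) + 1 - -(ρ : ℤ)).toNat = 2 * ρ + 1 := by omega
      rw [e1, e2] at a1
      calc _ ≤ ((T n).card : ℝ) * ((T n).card * (m * (2 * ρ + 1))) := by exact_mod_cast a1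
        _ ≤ (72 * ρ ^ 2) * ((72 * ρ ^ 2) * (m * (2 * ρ + 1))) := by gcongr
        _ = _ := by ring
    · rw [nsmul_eq_mul]
      gcongr
      have : (((box (2 * ρ ^ 2)).filter Prim).filter fun n => ¬m ≤ nm n).card ≤ (box m).card :=
        card_le_card fun n hn => mem_box.2 (not_le.1 (mem_filter.1 hn).2).le
      rw [card_box] at this
      exact_mod_cast this

open Classical in
theorem card_det_zero (hγ : Gam Λ γ) {ρ : ℕ} (Adm : V → Prop)
    (S : Finset (Matrix (Fin 3) (Fin 3) ℤ))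
    (hS : ∀ M ∈ S, (∀ i, nm (M i) ≤ ρ ∧ M i ∈ Λ) ∧ M.det = 0 ∧
      (∀ l l', l ≠ l' → Mᵀ l ⨯₃ Mᵀ l' ≠ 0) ∧ ∀ n, M *ᵥ n = 0 → Adm n) :
    (S.card : ℝ) ≤ ∑ n ∈ (box (2 * ρ ^ 2)).filter (fun n => Prim n ∧ (∀ c, n c ≠ 0) ∧ Adm n),
      (18 * ρ ^ 2 / (γ n * nm n) : ℝ) ^ 3 := by
  have hex : ∀ M : Matrix (Fin 3) (Fin 3) ℤ, ∃ n : V, M ∈ S →
      Prim n ∧ nm n ≤ 2 * ρ ^ 2 ∧ (∀ i, n ⬝ᵥ M i = 0) ∧ ∃ i j, M i ⨯₃ M j ≠ 0 := fun M => by
    by_cases hM : M ∈ S
    swap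
    · exact ⟨0, fun h => absurd h hM⟩
    have h1 : ∃ i j, M i ⨯₃ M j ≠ 0 := by
      by_contra hcon
      push Not at hcon
      refine (hS M hM).2.2.1 0 1 (by decide) (cross_eq_zero_iff.2 fun i j => ?_)
      have := cross_eq_zero_iff.1 (hcon i j) 0 1
      simp only [transpose_apply]
      linarith
    obtain ⟨i, j, hij⟩ := h1
    obtain ⟨δ, n, hδ, hn, e⟩ := exists_prim hij
    refine ⟨n, fun _ => ⟨hn, nm_le_of_cross hδ e ((hS M hM).1 i).1 ((hS M hM).1 j).1, fun k => ?_,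
      i, j, hij⟩⟩
    have h2 : (M i ⨯₃ M j) ⬝ᵥ M k = 0 := by
      have := (hS M hM).2.1
      rw [det_fin_three] at this
      fin_cases i <;> fin_cases j <;> fin_cases k <;>
        simp [cross_apply, dotProduct, Fin.sum_univ_three] <;> linarith
    rw [e, smul_dotProduct, smul_eq_mul] at h2
    exact (mul_eq_zero.1 h2).resolve_left hδ.ne'
  choose ν hν using hex
  have hmv : ∀ M ∈ S, M *ᵥ ν M = 0 := fun M hM => funext fun i => by
    rw [mulVec, dotProduct_comm]; exact (hν M hM).2.2.1 i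
  rw [card_eq_sum_card_fiberwise (f := ν)
    (t := (box (2 * ρ ^ 2)).filter (fun n => Prim n ∧ (∀ c, n c ≠ 0) ∧ Adm n)) fun M hM => ?_,
    Nat.cast_sum]
  · refine sum_le_sum fun n hn => ?_
    rcases (S.filter fun M => ν M = n).eq_empty_or_nonempty with he | ⟨M₀, hM₀⟩
    · rw [he, card_empty, Nat.cast_zero]; positivity
    set T : Finset V := (box ρ).filter fun r => r ∈ Λ ∧ n ⬝ᵥ r = 0 with hT
    have hTm : ∀ r, r ∈ T ↔ nm r ≤ ρ ∧ r ∈ Λ ∧ n ⬝ᵥ r = 0 := fun r => by simp [hT, mem_box]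
    have hrow : ∀ M ∈ S.filter fun M => ν M = n, ∀ i, M i ∈ T := fun M hM i => by
      obtain ⟨h1, rfl⟩ := mem_filter.1 hM
      exact (hTm _).2 ⟨((hS M h1).1 i).1, ((hS M h1).1 i).2, (hν M h1).2.2.1 i⟩
    obtain ⟨i, j, hij⟩ := (hν M₀ (mem_filter.1 hM₀).1).2.2.2
    have a1 := card_plane' hγ (mem_filter.1 hn).2.1 (fun r hr => (hTm r).1 hr)
      ((hTm _).1 (hrow M₀ hM₀ i)) ((hTm _).1 (hrow M₀ hM₀ j)) hij
    have a2 : (S.filter fun M => ν M = n).card ≤ (Fintype.piFinset fun _ : Fin 3 => T).card :=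
      card_le_card_of_injOn (fun M i => M i) (fun M hM => Fintype.mem_piFinset.2 (hrow M hM))
        fun _ _ _ _ h => h
    rw [Fintype.card_piFinset, prod_const, card_univ, Fintype.card_fin] at a2
    calc _ ≤ (T.card : ℝ) ^ 3 := by exact_mod_cast a2
      _ ≤ _ := by gcongr
  · refine mem_filter.2 ⟨mem_box.2 (hν M hM).2.1, (hν M hM).1, fun c hc => ?_,
      (hS M hM).2.2.2 _ (hmv M hM)⟩
    have key : ∀ l l' : Fin 3, l ≠ l' → (∀ i, ν M l * M i l + ν M l' * M i l' = 0) →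
        ν M l = 0 ∧ ν M l' = 0 := fun l l' hl h => by
      have a1 := (hS M hM).2.2.1 l l' hl
      rw [Ne, cross_eq_zero_iff] at a1
      push Not at a1
      obtain ⟨i, j, hij⟩ := a1
      simp only [transpose_apply] at hij
      have a2 := sub_ne_zero.2 hij
      constructor
      · apply mul_right_cancel₀ a2
        linear_combination M j l' * h i - M i l' * h j
      · apply mul_right_cancel₀ a2
        linear_combination M i l * h j - M j l * h i
    have h0 := (hν M hM).2.2.1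
    simp only [dotProduct, Fin.sum_univ_three] at h0
    refine (hν M hM).1.ne_zero ?_
    fin_cases c
    · have := key 1 2 (by decide) fun i => by
        have := h0 i; simp only [Fin.zero_eta] at hc; rw [hc] at this; linarith
      funext k; fin_cases k
      exacts [hc, this.1, this.2]
    · have := key 0 2 (by decide) fun i => by
        have := h0 i; simp only [Fin.mk_one] at hc; rw [hc] at this; linarith
      funext k; fin_cases k
      exacts [this.1, hc, this.2]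
    · have := key 0 1 (by decide) fun i => by
        have := h0 i; simp only [Fin.reduceFinMk] at hc; rw [hc] at this; linarith
      funext k; fin_cases k
      exacts [this.1, this.2, hc]

end counts

end Crest.Agent.R32
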