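import Crest.Agent.R32.Zero

/-!
Row 32: the random construction.
-/

set_option autoImplicit false
set_option linter.unusedSectionVars false

namespace Crest.Agent.R32

open Finset Matrix Sum
open scoped BigOperators

abbrev II (D : Type) : Type := Option D
abbrev JJ (D : Type) : Type := II D ⊕ Bool

variable {D : Type} [Fintype D] [DecidableEq D]
variable {q : JJ D → ℕ} [hp : ∀ j, Fact (q j).Prime] (hq : Function.Injective q) {U : II D → ℕ}

local notation "𝐩" => q (inr false)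
local notation "𝐏" => q (inr true)
local notation "𝐐" => ∏ i : II D, q (inl i)

def cof (q : JJ D → ℕ) (i : II D) : ℕ := ∏ i' ∈ univ.erase i, q (inl i')

theorem cof_mul (i : II D) : cof q i * q (inl i) = 𝐐 :=
  prod_erase_mul univ (fun i' => q (inl i')) (mem_univ i)

include hq in
theorem cast_ne {j j' : JJ D} (h : j ≠ j') : ((q j : ℕ) : ZMod (q j')) ≠ 0 := fun e =>
  h (hq ((Nat.prime_dvd_prime_iff_eq (hp j').out (hp j).out).1
    ((ZMod.natCast_eq_zero_iff _ _).1 e)).symm)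

include hq in
theorem cof_ne (i : II D) {j : JJ D} (h : ∀ i', i' ≠ i → j ≠ inl i') : ((cof q i : ℕ) : ZMod (q j)) ≠ 0 := by
  rw [cof, Nat.cast_prod]
  exact prod_ne_zero_iff.2 fun i' hi' => cast_ne hq (h i' (ne_of_mem_erase hi')).symm

def base (X : D → ZMod 𝐩 × ZMod 𝐩 → Fin 3 → ZMod 𝐩) (i : II D) (s : ZMod 𝐩 × ZMod 𝐩) : V :=
  i.elim ![𝐩, 0, 0] fun i => ![(X i s 0).val + 𝐩, (X i s 1).val, (X i s 2).val]

def res (X : D → ZMod 𝐩 × ZMod 𝐩 → Fin 3 → ZMod 𝐩) (δ : ZMod 𝐏) (s : ZMod 𝐩 × ZMod 𝐩)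
    (ρ : ∀ i, Fin (U i) × Fin (U i)) (α : CT (ZMod 𝐏)) : ∀ j, Fin 3 → ZMod (q j)
  | inl i => red _ (sv (base X i s) 𝐩 (ρ i))
  | inr false => X0 s
  | inr true => pv δ α

noncomputable def GG (q : JJ D → ℕ) [∀ j, Fact (q j).Prime] : ∀ j, Finset (M3 (ZMod (q j)))
  | inl i => univ.filter fun g => g.det = cof q i
  | inr false => univ.filter fun g => g.det = 1
  | inr true => univ.filter fun g => g.det ≠ 0

def th (q : JJ D → ℕ) : JJ D → ℝ
  | inl i => q (inl i)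
  | inr false => q (inr false)
  | inr true => 1

include hq in
theorem goodG : GoodG (GG q) (th q) := by
  have h1 : ∀ i, ((cof q i : ℕ) : ZMod (q (inl i))) ≠ 0 := fun i =>
    cof_ne hq i fun i' h e => h (inl_injective e).symm
  refine ⟨?_, ?_, ?_, ?_⟩
  · rintro (i | _ | _)
    · refine card_pos.1 (Nat.pos_of_mul_pos_left (a := 4) (lt_of_lt_of_le ?_ (card_det (h1 i))))
      exact pow_pos Fintype.card_pos _
    · exact ⟨1, by simp [GG]⟩
    · exact ⟨1, by simp [GG]⟩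
  · rintro (i | _ | _) g hg
    · rw [(mem_filter.1 hg).2]; exact h1 i
    · rw [(mem_filter.1 hg).2]; exact one_ne_zero
    · exact (mem_filter.1 hg).2
  · rintro (i | _ | _) <;> simp [th]
  · rintro (i | _ | _) M N
    · have := fib_det_bound (h1 i) M N
      rwa [ZMod.card] at this
    · have := fib_det_bound one_ne_zero M N
      rwa [ZMod.card] at this
    · have := fib_GL_bound M N
      rwa [ZMod.card] at this

variable (X : D → ZMod (q (inr false)) × ZMod (q (inr false)) → Fin 3 → ZMod (q (inr false)))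
  (δ : ZMod (q (inr true)))

theorem base_mem (i : II D) (s : ZMod 𝐩 × ZMod 𝐩) :
    (𝐩 ≤ base X i s 0 ∧ base X i s 0 < 2 * 𝐩) ∧ (0 ≤ base X i s 1 ∧ base X i s 1 < 𝐩) ∧
      (0 ≤ base X i s 2 ∧ base X i s 2 < 𝐩) := by
  have := (hp (inr false)).out.pos
  rcases i with _ | i
  · simp [base]; omega
  · have h0 := ZMod.val_lt (X i s 0)
    have h1 := ZMod.val_lt (X i s 1)
    have h2 := ZMod.val_lt (X i s 2)
    simp only [base, Option.elim, cons_val_zero, cons_val_one, cons_val_two, head_cons, tail_cons]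
    omega

theorem abs_det_le {A : M3 ℤ} {a b : ℤ} (h0 : ∀ l, |A 0 l| ≤ a) (h1 : ∀ l, |A 1 l| ≤ b)
    (h2 : ∀ l, |A 2 l| ≤ b) : |A.det| ≤ 6 * (a * b * b) := by
  have ha : 0 ≤ a := (abs_nonneg _).trans (h0 0)
  have hb : 0 ≤ b := (abs_nonneg _).trans (h1 0)
  have key : ∀ i j k, |A 0 i * A 1 j * A 2 k| ≤ a * b * b := fun i j k => by
    rw [abs_mul, abs_mul]
    gcongr
    exacts [h0 i, h1 j, h2 k]
  have k1 := abs_le.1 (key 0 1 2)
  have k2 := abs_le.1 (key 0 2 1)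
  have k3 := abs_le.1 (key 1 0 2)
  have k4 := abs_le.1 (key 1 2 0)
  have k5 := abs_le.1 (key 2 0 1)
  have k6 := abs_le.1 (key 2 1 0)
  rw [det_fin_three, abs_le]
  constructor <;> linarith [k1.1, k1.2, k2.1, k2.2, k3.1, k3.2, k4.1, k4.2, k5.1, k5.2, k6.1, k6.2]

theorem det_sv_le (i : II D) (s : Fin 3 → ZMod 𝐩 × ZMod 𝐩) {W : ℕ} (ρ : Fin 3 → Fin W × Fin W) :
    |(cols fun l => sv (base X i (s l)) 𝐩 (ρ l)).det| ≤ (12 * 𝐩 ^ 3 * W ^ 2 : ℕ) := by
  have key : ∀ (x : ℤ) (r : Fin W), 0 ≤ x ∧ x < 𝐩 → |x + 𝐩 * (r : ℕ)| ≤ 𝐩 * W := fun x r hx => by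
    have h1 : ((r : ℕ) : ℤ) + 1 ≤ W := by exact_mod_cast r.2
    have h2 : (0 : ℤ) ≤ (r : ℕ) := by positivity
    have h3 : (0 : ℤ) ≤ 𝐩 := by positivity
    rw [abs_of_nonneg (by nlinarith [hx.1])]
    nlinarith [hx.2]
  refine (abs_det_le (a := 2 * 𝐩) (b := 𝐩 * W) (fun l => ?_) (fun l => key _ _ (base_mem X i _).2.1)
    fun l => key _ _ (base_mem X i _).2.2).trans (le_of_eq (by push_cast; ring))
  have := (base_mem X i (s l)).1
  have h3 : (0 : ℤ) ≤ 𝐩 := by positivity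
  exact abs_le.2 ⟨by show _ ≤ base X i (s l) 0; linarith, this.2.le⟩

theorem det_red (k : ℕ) (x : Fin 3 → V) :
    (cols fun l => red k (x l)).det = (((cols x).det : ℤ) : ZMod k) := by
  simp [det_fin_three, red]

/-- The residue matrices of a triple. -/
def MM (s : Fin 3 → ZMod 𝐩 × ZMod 𝐩) (ρ : ∀ i, Fin 3 → Fin (U i) × Fin (U i))
    (α : Fin 3 → CT (ZMod 𝐏)) (j : JJ D) : M3 (ZMod (q j)) :=
  cols fun l => res X δ (s l) (fun i => ρ i l) (α l) j

noncomputable def t0 (s : Fin 3 → ZMod 𝐩 × ZMod 𝐩) (ρ : ∀ i, Fin 3 → Fin (U i) × Fin (U i)) : ℤ :=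
  ∑ i, cof q i * (cols fun l => sv (base X i (s l)) 𝐩 (ρ i l)).det

variable (hbig : ∀ i, 4 * Fintype.card (II D) * (12 * q (inr false) ^ 3 * U i ^ 2) ≤ q (inl i))

include hbig in
theorem t0_le (s : Fin 3 → ZMod 𝐩 × ZMod 𝐩) (ρ : ∀ i, Fin 3 → Fin (U i) × Fin (U i)) :
    4 * |t0 X s ρ| ≤ (𝐐 : ℕ) := by
  have h1 : ∀ i, Fintype.card (II D) * (4 * |cof q i * (cols fun l => sv (base X i (s l)) 𝐩 (ρ i l)).det|)
      ≤ ((𝐐 : ℕ) : ℤ) := fun i => by
    have a1 := det_sv_le X i s (ρ i)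
    have a2 : (4 * Fintype.card (II D) * (12 * 𝐩 ^ 3 * U i ^ 2 : ℕ) : ℤ) ≤ q (inl i) := by
      exact_mod_cast hbig i
    rw [← cof_mul i, abs_mul, Nat.abs_cast, Nat.cast_mul]
    calc _ = cof q i * (4 * Fintype.card (II D) *
          |(cols fun l => sv (base X i (s l)) 𝐩 (ρ i l)).det|) := by ring
      _ ≤ cof q i * (4 * Fintype.card (II D) * (12 * 𝐩 ^ 3 * U i ^ 2 : ℕ)) := by gcongr
      _ ≤ _ := by gcongr
  have h2 : (0 : ℤ) < Fintype.card (II D) := by exact_mod_cast Fintype.card_pos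
  refine le_of_mul_le_mul_left ?_ h2
  calc _ ≤ Fintype.card (II D) * (4 * ∑ i,
        |cof q i * (cols fun l => sv (base X i (s l)) 𝐩 (ρ i l)).det|) := by
        gcongr
        exact abs_sum_le_sum_abs _ _
    _ ≤ _ := by
        rw [mul_sum, mul_sum]
        exact (sum_le_card_nsmul _ _ _ fun i _ => h1 i).trans
          (by rw [card_univ, nsmul_eq_mul])

variable (hX : ∀ s : Fin 3 → ZMod (q (inr false)) × ZMod (q (inr false)), Function.Injective s →
      ∑ i, (cof q (some i) : ZMod (q (inr false))) * (cols fun l => X i (s l)).det ≠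
        (cols fun l => X0 (s l)).det)

include hbig hX in
theorem key_det {L : ℕ} {g : ∀ j, M3 (ZMod (q j))} (hg : g ∈ Fintype.piFinset (GG q))
    (s : Fin 3 → ZMod 𝐩 × ZMod 𝐩) (ρ : ∀ i, Fin 3 → Fin (U i) × Fin (U i))
    (α : Fin 3 → CT (ZMod 𝐏)) (u : Fin 3 → Fin 3 → Fin L)
    (h : 2 * |(mat hq g (MM X δ s ρ α) u).det| ≤ (𝐐 : ℕ)) :
    (mat hq g (MM X δ s ρ α) u).det = t0 X s ρ ∧ ¬ Function.Injective s := by
  have h1 : ((𝐐 : ℕ) : ℤ) ∣ t0 X s ρ - (mat hq g (MM X δ s ρ α) u).det := by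
    rw [Nat.cast_prod]
    refine Fintype.prod_dvd_of_coprime (fun i j hij => Nat.isCoprime_iff_coprime.2
      (coprime_of_inj hq (inl_injective.ne hij))) fun i => ?_
    rw [← ZMod.intCast_eq_intCast_iff_dvd_sub, det_mat,
      (mem_filter.1 (Fintype.mem_piFinset.1 hg (inl i))).2, t0, Int.cast_sum,
      sum_eq_single i (fun i' _ hi => ?_) fun h => absurd (mem_univ i) h]
    · rw [Int.cast_mul, Int.cast_natCast, ← det_red]; rfl
    · have : ((cof q i' : ℕ) : ZMod (q (inl i))) = 0 := (ZMod.natCast_eq_zero_iff _ _).2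
        (dvd_prod_of_mem (fun i' => q (inl i')) (mem_erase.2 ⟨hi.symm, mem_univ _⟩))
      rw [Int.cast_mul, Int.cast_natCast, this, zero_mul]
  have h2 := t0_le X hbig s ρ
  have hQ : (0 : ℤ) < (𝐐 : ℕ) := by exact_mod_cast prod_pos fun i _ => (hp (inl i)).out.pos
  have h3 : t0 X s ρ - (mat hq g (MM X δ s ρ α) u).det = 0 :=
    Int.eq_zero_of_abs_lt_dvd h1 (by
      have := abs_sub (t0 X s ρ) (mat hq g (MM X δ s ρ α) u).det
      linarith)
  refine ⟨(sub_eq_zero.1 h3).symm, fun hs => hX s hs ?_⟩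
  have h4 := det_mat hq g (MM X δ s ρ α) u (inr false)
  rw [← sub_eq_zero.1 h3, (mem_filter.1 (Fintype.mem_piFinset.1 hg (inr false))).2, one_mul, t0,
    Int.cast_sum, Fintype.sum_option] at h4
  refine Eq.trans ?_ h4
  simp only [Int.cast_mul, Int.cast_natCast, ← det_red]
  have e0 : (cols fun l => red 𝐩 (sv (base X none (s l)) 𝐩 (ρ none l))) = 0 := by
    ext c l
    fin_cases c <;> simp [red, sv, base]
  have e1 : ∀ i l, red 𝐩 (sv (base X (some i) (s l)) 𝐩 (ρ (some i) l)) = X i (s l) := fun i l => by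
    funext c
    fin_cases c <;> simp [red, sv, base]
  simp only [e0, e1, det_zero, mul_zero, zero_add]

include hbig in
theorem base_ne (hU : ∀ i, 0 < U i) (i : II D) (s : ZMod 𝐩 × ZMod 𝐩) :
    ((base X i s 0 : ℤ) : ZMod (q (inl i))) ≠ 0 ∧ U i ≤ q (inl i) := by
  have h1 := hbig i
  have h2 : 0 < Fintype.card (II D) := Fintype.card_pos
  have h3 := (hp (inr false)).out.pos
  have h4 : 𝐩 ≤ 𝐩 ^ 3 := Nat.le_self_pow (by norm_num) _
  have h5 : U i ≤ U i ^ 2 := Nat.le_self_pow (by norm_num) _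
  have h6 := hU i
  have h7 : 12 * 𝐩 ^ 3 * U i ^ 2 ≤ q (inl i) := le_trans (Nat.le_mul_of_pos_left _ (by omega)) h1
  refine ⟨fun e => ?_, by nlinarith⟩
  have h8 := (base_mem X i s).1
  have h9 := Int.le_of_dvd (by omega) ((ZMod.intCast_zmod_eq_zero_iff_dvd _ _).1 e)
  have h10 : 2 * 𝐩 ≤ q (inl i) := by nlinarith
  omega

include hbig in
theorem MM_ne (hU : ∀ i, 0 < U i) (s : Fin 3 → ZMod 𝐩 × ZMod 𝐩)
    (ρ : ∀ i, Fin 3 → Fin (U i) × Fin (U i)) (α : Fin 3 → CT (ZMod 𝐏)) (j : JJ D) :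
    MM X δ s ρ α j ≠ 0 := fun e => by
  have := congrFun (congrFun e 0) 0
  rcases j with i | _ | _
  · exact (base_ne X hbig hU i (s 0)).1 this
  · exact one_ne_zero this
  · exact (α 0).1.2 this

end Crest.Agent.R32
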