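import Crest.Agent.R32.Main

/-!
Row 32: the probability of a bad triple.
-/

set_option autoImplicit false
set_option linter.unusedSectionVars false

namespace Crest.Agent.R32

open Finset Matrix Sum
open scoped BigOperators

theorem expect_eval {ι : Type} [Fintype ι] [DecidableEq ι] {T : ι → Type} [∀ i, Fintype (T i)]
    [∀ i, Nonempty (T i)] (i : ι) (f : T i → ℝ) : 𝔼 x : ∀ i, T i, f (x i) = 𝔼 y, f y := by
  rw [Fintype.expect_equiv (Equiv.piSplitAt i T) (fun x => f (x i)) (fun x => f x.1) fun f => rfl,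
    ← univ_product_univ, expect_product]
  simp

theorem fac_le {k d : ℕ} (hd : d ≤ 2) :
    12 * (k : ℝ) ^ d * (if d = 0 then (k : ℝ) else 1) ≤ 12 * (k * (1 + k * ind (2 ≤ d))) := by
  interval_cases d
  · simp [ind_neg]
  · simp [ind_neg]
  · have : (0 : ℝ) ≤ k := by positivity
    simp only [ind_pos le_rfl, OfNat.ofNat_ne_zero, if_false]
    nlinarith

/-- A bad triple: small determinant, no two columns parallel. -/
def Bad (Q : ℕ) (A : M3 ℤ) : Prop :=
  2 * |A.det| ≤ Q ∧ ∀ l l', l ≠ l' → Aᵀ l ⨯₃ Aᵀ l' ≠ 0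

variable {D : Type} [Fintype D] [DecidableEq D]
variable {q : JJ D → ℕ} [hp : ∀ j, Fact (q j).Prime] (hq : Function.Injective q) {U : II D → ℕ}

local notation "𝐩" => q (inr false)
local notation "𝐏" => q (inr true)
local notation "𝐐" => ∏ i : II D, q (inl i)
local notation "𝐦" => ∏ j : JJ D, q j

theorem m_eq : 𝐦 = 𝐐 * (𝐏 * 𝐩) := by rw [Fintype.prod_sum_type, Fintype.prod_bool]

variable (X : D → ZMod (q (inr false)) × ZMod (q (inr false)) → Fin 3 → ZMod (q (inr false)))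
  (δ : ZMod (q (inr true)))
  (hbig : ∀ i, 4 * Fintype.card (II D) * (12 * q (inr false) ^ 3 * U i ^ 2) ≤ q (inl i))
  (hX : ∀ s : Fin 3 → ZMod (q (inr false)) × ZMod (q (inr false)), Function.Injective s →
      ∑ i, (cof q (some i) : ZMod (q (inr false))) * (cols fun l => X i (s l)).det ≠
        (cols fun l => X0 (s l)).det)
  (hU : ∀ i, 0 < U i) (hQP : ∏ i : II D, q (inl i) < q (inr true)) {L : ℕ} (hL : 0 < L)

include hbig hX hU hQP hL in
open Classical in
theorem bad_point (s : Fin 3 → ZMod 𝐩 × ZMod 𝐩) (ρ : ∀ i, Fin 3 → Fin (U i) × Fin (U i))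
    (α : Fin 3 → CT (ZMod 𝐏)) :
    𝔼 g ∈ Fintype.piFinset (GG q), 𝔼 u : Fin 3 → Fin 3 → Fin L,
      ind (Bad 𝐐 (mat hq g (MM X δ s ρ α) u)) ≤
      288 ^ 3 * 216 * (Nat.log 2 (2 * (2 * (𝐦 * L)) ^ 2) + 1) * 12 ^ Fintype.card (JJ D) *
          (𝐐 : ℕ) * 𝐩 / ((𝐦 : ℕ) * L : ℝ) ^ 3 *
        ((ind (¬ Function.Injective s) + 𝐩 * ind (2 ≤ df (cols fun l => X0 (s l)))) *
          ∏ i, (1 + q (inl i) *
            ind (2 ≤ df (cols fun l => red (q (inl i)) (sv (base X i (s l)) 𝐩 (ρ i l)))))) +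
      27 * 288 ^ 2 * 5 * (𝐦 : ℕ) ^ 13 / ((𝐦 : ℕ) * L : ℝ) ^ 4 +
      72 ^ 3 * 12 ^ Fintype.card (JJ D) / (L : ℝ) ^ 3 *
        ∑ n ∈ (box (2 * (2 * (𝐦 * L)) ^ 2)).filter (fun n => Prim n ∧ ∀ c, n c ≠ 0),
          ind ((cols fun l => red (q (inl none)) (sv ![𝐩, 0, 0] 𝐩 (ρ none l))) *ᵥ red _ n = 0) *
            ind ((cols fun l => pv δ (α l)) *ᵥ red _ n = 0) / (nm n : ℝ) ^ 3 := by
  have hM := MM_ne X δ hbig hU s ρ α
  have hi := ind_nonneg
  have key := fun g hg u (h : Bad 𝐐 (mat hq g (MM X δ s ρ α) u)) =>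
    key_det hq X δ hbig hX (L := L) (g := g) hg s ρ α u h.1
  have n1 : (0 : ℝ) ≤ ∏ i, (1 + q (inl i) *
      ind (2 ≤ df (cols fun l => red (q (inl i)) (sv (base X i (s l)) 𝐩 (ρ i l))))) :=
    prod_nonneg fun i _ => by have := hi (2 ≤ df (cols fun l =>
      red (q (inl i)) (sv (base X i (s l)) 𝐩 (ρ i l)))); positivity
  have n2 := hi (¬ Function.Injective s)
  have n3 := hi (2 ≤ df (cols fun l => X0 (s l)))
  have n4 : (0 : ℝ) ≤ ∑ n ∈ (box (2 * (2 * (𝐦 * L)) ^ 2)).filter (fun n => Prim n ∧ ∀ c, n c ≠ 0),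
      ind ((cols fun l => red (q (inl none)) (sv ![𝐩, 0, 0] 𝐩 (ρ none l))) *ᵥ red _ n = 0) *
        ind ((cols fun l => pv δ (α l)) *ᵥ red _ n = 0) / (nm n : ℝ) ^ 3 :=
    sum_nonneg fun n _ => div_nonneg (mul_nonneg (hi _) (hi _)) (by positivity)
  have zero : (∀ g ∈ Fintype.piFinset (GG q), ∀ u : Fin 3 → Fin 3 → Fin L,
      ¬ Bad 𝐐 (mat hq g (MM X δ s ρ α) u)) → 𝔼 g ∈ Fintype.piFinset (GG q),
      𝔼 u : Fin 3 → Fin 3 → Fin L, ind (Bad 𝐐 (mat hq g (MM X δ s ρ α) u)) = 0 := fun h =>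
    expect_eq_zero fun g hg => expect_eq_zero fun u _ => ind_neg (h g hg u)
  by_cases hs : Function.Injective s
  · rw [zero fun g hg u h => (key g hg u h).2 hs]
    positivity
  by_cases ht : t0 X s ρ = 0
  · refine le_add_of_nonneg_of_le (by positivity) (le_trans (expect_le_expect fun g hg =>
      expect_le_expect fun u _ => ind_mono fun h => ⟨(key g hg u h).1.trans ht, h.2⟩)
      ((core_zero hq hL (goodG hq) hM).trans ?_))
    gcongr with n hn
    rw [← ind_and]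
    exact ind_mono fun h => ⟨h (inl none), h (inr true)⟩
  have h4 := t0_le X hbig s ρ
  by_cases hP : 1 ≤ df (MM X δ s ρ α (inr true))
  · rw [zero fun g hg u h => ht ?_]
    · positivity
    have h1 := det_mat hq g (MM X δ s ρ α) u (inr true)
    rw [det_eq_zero_of_df hP, mul_zero, (key g hg u h).1, ZMod.intCast_zmod_eq_zero_iff_dvd] at h1
    refine Int.eq_zero_of_abs_lt_dvd h1 ?_
    have : ((𝐐 : ℕ) : ℤ) < 𝐏 := by exact_mod_cast hQP
    linarith [abs_nonneg (t0 X s ρ)]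
  have h5 : |t0 X s ρ| ≤ (𝐦 : ℕ) := by
    have : 𝐐 ≤ 𝐦 := m_eq (q := q) ▸
      Nat.le_mul_of_pos_right _ (mul_pos (hp _).out.pos (hp _).out.pos)
    have : ((𝐐 : ℕ) : ℤ) ≤ (𝐦 : ℕ) := by exact_mod_cast this
    linarith [abs_nonneg (t0 X s ρ)]
  refine le_add_of_le_of_nonneg (le_trans (expect_le_expect fun g hg =>
      expect_le_expect fun u _ => ind_mono fun h => (key g hg u h).1)
      ((core_t hq hL (goodG hq) hM ht h5).trans ?_)) (by positivity)
  have h6 : (∏ j, 12 * (q j : ℝ) ^ df (MM X δ s ρ α j) *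
      (if df (MM X δ s ρ α j) = 0 then th q j else 1)) ≤
      12 ^ Fintype.card (JJ D) * (𝐐 : ℕ) * 𝐩 *
        ((ind (¬ Function.Injective s) + 𝐩 * ind (2 ≤ df (cols fun l => X0 (s l)))) *
          ∏ i, (1 + q (inl i) *
            ind (2 ≤ df (cols fun l => red (q (inl i)) (sv (base X i (s l)) 𝐩 (ρ i l)))))) := by
    have e : df (MM X δ s ρ α (inr true)) = 0 := by omega
    rw [Fintype.prod_sum_type, Fintype.prod_bool, e, ind_pos hs]
    have a1 := fac_le (k := 𝐩) (df_le_two (hM (inr false)))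
    have a2 := prod_le_prod (s := univ) (fun i _ => by positivity)
      fun i _ => fac_le (k := q (inl i)) (df_le_two (hM (inl i)))
    refine (mul_le_mul a2 (mul_le_mul_of_nonneg_left a1 (a := 12 * (𝐏 : ℝ) ^ 0 * 1)
      (by positivity)) (by positivity) ((prod_nonneg fun i _ => by positivity).trans a2)).trans
      (le_of_eq ?_)
    rw [prod_mul_distrib, prod_mul_distrib, prod_const, card_univ, Fintype.card_sum,
      Fintype.card_bool, Nat.cast_prod]
    change _ = _ * ((1 + _ * ind (2 ≤ df (MM X δ s ρ α (inr false)))) *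
      ∏ i, (1 + _ * ind (2 ≤ df (MM X δ s ρ α (inl i)))))
    ring
  refine add_le_add_left ?_ _
  refine (div_le_div_of_nonneg_right (mul_le_mul_of_nonneg_left h6 (by positivity))
    (by positivity)).trans (le_of_eq (by ring))

end Crest.Agent.R32
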