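import Crest.Agent.R32.Main2

/-!
Row 32: averaging over the residues.
-/

set_option autoImplicit false
set_option linter.unusedSectionVars false

namespace Crest.Agent.R32

open Finset Matrix Sum
open scoped BigOperators

theorem prob_not_inj {S : Type} [Fintype S] [Nonempty S] [DecidableEq S] :
    𝔼 s : Fin 3 → S, ind (¬ Function.Injective s) ≤ 3 / Fintype.card S := by
  have hS : (0 : ℝ) < Fintype.card S := by exact_mod_cast Fintype.card_pos
  have key : ∀ a b c : Fin 3, (∀ l, l = a ∨ l = b ∨ l = c) →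
      𝔼 s : Fin 3 → S, ind (s a = s b) ≤ 1 / Fintype.card S := fun a b c h => by
    refine (expect_ind_le_of_inj (fun s => (s a, s c)) fun s s' e e' f => ?_).trans (le_of_eq ?_)
    · simp only [Prod.mk.injEq] at f
      funext l
      rcases h l with rfl | rfl | rfl
      exacts [f.1, e.symm.trans (f.1.trans e'), f.2]
    · simp only [Fintype.card_prod, Fintype.card_pi, prod_const, card_univ, Fintype.card_fin]
      push_cast
      field_simp
  have h1 := key 0 1 2 (by decide)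
  have h2 := key 0 2 1 (by decide)
  have h3 := key 1 2 0 (by decide)
  refine (expect_le_expect (g := fun s => ind (s 0 = s 1) + ind (s 0 = s 2) + ind (s 1 = s 2))
    fun s _ => ?_).trans ?_
  · have i1 := ind_nonneg (s 0 = s 1)
    have i2 := ind_nonneg (s 0 = s 2)
    have i3 := ind_nonneg (s 1 = s 2)
    refine ind_le (by positivity) fun h => ?_
    by_cases e1 : s 0 = s 1
    · rw [ind_pos e1]; linarith
    by_cases e2 : s 0 = s 2
    · rw [ind_pos e2]; linarith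
    by_cases e3 : s 1 = s 2
    · rw [ind_pos e3]; linarith
    refine absurd (fun a b e => ?_) h
    fin_cases a <;> fin_cases b <;> simp_all [eq_comm]
  · rw [expect_add_distrib, expect_add_distrib]
    calc _ ≤ 1 / (Fintype.card S : ℝ) + 1 / Fintype.card S + 1 / Fintype.card S := by gcongr
      _ = _ := by ring

theorem avg_s {p : ℕ} [hp : Fact p.Prime] :
    𝔼 s : Fin 3 → ZMod p × ZMod p, (ind (¬ Function.Injective s) +
      p * ind (2 ≤ df (cols fun l => X0 (s l)))) ≤ 4 / (p : ℝ) ^ 2 := by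
  have h0 : (1 : ℝ) ≤ p := by exact_mod_cast hp.out.pos
  have h1 := prob_not_inj (S := ZMod p × ZMod p)
  have h2 : 𝔼 s : Fin 3 → ZMod p × ZMod p, ind (2 ≤ df (cols fun l => X0 (s l))) ≤
      1 / (p : ℝ) ^ 4 := by
    have key : ∀ s : Fin 3 → ZMod p × ZMod p, 2 ≤ df (cols fun l => X0 (s l)) → ∀ l, s l = s 0 :=
      fun s h l => by
        have a := cross_eq_zero_iff.1 (col_cross_of_df h 0 l)
        have a1 := a 0 1
        have a2 := a 0 2
        simp [X0] at a1 a2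
        exact Prod.ext a1 a2
    refine (expect_ind_le_of_inj (fun s => s 0) fun s s' e e' f => ?_).trans (le_of_eq ?_)
    · funext l
      rw [key s e, key s' e', f]
    · simp only [Fintype.card_prod, Fintype.card_pi, prod_const, card_univ, Fintype.card_fin,
        ZMod.card]
      push_cast
      field_simp
  rw [expect_add_distrib, ← mul_expect]
  rw [Fintype.card_prod, ZMod.card, Nat.cast_mul] at h1
  calc _ ≤ 3 / ((p : ℝ) * p) + p * (1 / (p : ℝ) ^ 4) := by gcongr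
    _ = 3 / (p : ℝ) ^ 2 + 1 / (p ^ 2 * p) := by field_simp
    _ ≤ 3 / (p : ℝ) ^ 2 + 1 / (p ^ 2 * 1) := by gcongr
    _ = _ := by ring

theorem avg_alpha {P k : ℕ} [Fact P.Prime] [Fact k.Prime] (h2 : (2 : ZMod P) ≠ 0) {δ : ZMod P}
    (hδ : ¬ IsSquare δ) {M : M3 (ZMod k)} {x : ZMod k} (hx : x ≠ 0) (hM : ∀ l, M 0 l = x)
    {Z : ℕ} {S : Finset V} (hS : ∀ n ∈ S, (Prim n ∧ ∀ c, n c ≠ 0) ∧ nm n ≤ Z) :
    𝔼 α : Fin 3 → CT (ZMod P), ∑ n ∈ S, ind (M *ᵥ red k n = 0) *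
      ind ((cols fun l => pv δ (α l)) *ᵥ red P n = 0) / (nm n : ℝ) ^ 3 ≤
      (2160 / (P : ℝ) ^ 4 + 8000 / ((P : ℝ) ^ 3 * k ^ 3) *
        (k * ind (1 ≤ df M) + k ^ 2 * ind (2 ≤ df M))) * (Nat.log 2 Z + 1) := by
  have hP : (0 : ℝ) < P := by exact_mod_cast (Fact.out : P.Prime).pos
  have ha := sum_a (S := S) (Z := Z) fun n hn => ⟨(hS n hn).1.1.ne_zero, (hS n hn).2⟩
  have hc := sum_c (P := P) (S := S) (Z := Z) fun n hn => ⟨(hS n hn).1.2, (hS n hn).2⟩
  have hb := sum_b hx hM (S := S) (Z := Z) fun n hn => ⟨(hS n hn).1.1, (hS n hn).2⟩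
  rw [expect_sum_comm]
  calc _ ≤ ∑ n ∈ S, (4 / (P : ℝ) ^ 4 * (1 / (nm n : ℝ) ^ 3) +
        2 / (P : ℝ) ^ 2 * (ind (HH (red P n)) / (nm n : ℝ) ^ 3) +
        8 / (P : ℝ) ^ 3 * (ind (n 0 + n 1 + n 2 ≠ 0 ∧ M *ᵥ red k n = 0) / (nm n : ℝ) ^ 3)) := by
        refine sum_le_sum fun n hn => ?_
        have h := prob_par h2 hδ ((hS n hn).1.1.red_ne P)
        rw [ZMod.card] at h
        rw [← expect_div, ← mul_expect, ← mul_div_assoc, ← mul_div_assoc, ← mul_div_assoc,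
          ← add_div, ← add_div]
        gcongr
        have i1 := ind_nonneg (HH (red P n))
        by_cases e : M *ᵥ red k n = 0
        · simp only [e, and_true, ind_pos trivial, one_mul, mul_one]
          refine h.trans ?_
          gcongr
          refine ind_mono fun h' e' => h' ?_
          have := congrArg (Int.cast : ℤ → ZMod P) e'
          simpa [red] using this
        · rw [ind_neg e, zero_mul]
          have := ind_nonneg (n 0 + n 1 + n 2 ≠ 0 ∧ M *ᵥ red k n = 0)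
          positivity
    _ ≤ 4 / (P : ℝ) ^ 4 * (216 * (Nat.log 2 Z + 1 : ℝ)) +
        2 / (P : ℝ) ^ 2 * (648 / (P : ℝ) ^ 2 * (Nat.log 2 Z + 1)) +
        8 / (P : ℝ) ^ 3 * (1000 / (k : ℝ) ^ 3 * (k * ind (1 ≤ df M) + k ^ 2 * ind (2 ≤ df M)) *
          (Nat.log 2 Z + 1)) := by
        rw [sum_add_distrib, sum_add_distrib, ← mul_sum, ← mul_sum, ← mul_sum]
        gcongr
    _ = _ := by ring

variable {D : Type} [Fintype D] [DecidableEq D]
variable {q : JJ D → ℕ} [hp : ∀ j, Fact (q j).Prime] (hq : Function.Injective q) {U : II D → ℕ}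

local notation "𝐩" => q (inr false)
local notation "𝐏" => q (inr true)
local notation "𝐐" => ∏ i : II D, q (inl i)
local notation "𝐦" => ∏ j : JJ D, q j
local notation "𝐪" => q (inl none)

variable (X : D → ZMod (q (inr false)) × ZMod (q (inr false)) → Fin 3 → ZMod (q (inr false)))
  (δ : ZMod (q (inr true)))
  (hbig : ∀ i, 4 * Fintype.card (II D) * (12 * q (inr false) ^ 3 * U i ^ 2) ≤ q (inl i))
  (hX : ∀ s : Fin 3 → ZMod (q (inr false)) × ZMod (q (inr false)), Function.Injective s →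
      ∑ i, (cof q (some i) : ZMod (q (inr false))) * (cols fun l => X i (s l)).det ≠
        (cols fun l => X0 (s l)).det)
  (hU : ∀ i, 0 < U i) (hQP : ∏ i : II D, q (inl i) < q (inr true)) {L : ℕ} (hL : 0 < L)
  (h2 : (2 : ZMod (q (inr true))) ≠ 0) (hδ : ¬ IsSquare δ)

include hbig hX hU hQP hL h2 hδ in
open Classical in
theorem bad_avg :
    𝔼 s : Fin 3 → ZMod 𝐩 × ZMod 𝐩, 𝔼 ρ : ∀ i, Fin 3 → Fin (U i) × Fin (U i),
      𝔼 α : Fin 3 → CT (ZMod 𝐏), 𝔼 g ∈ Fintype.piFinset (GG q), 𝔼 u : Fin 3 → Fin 3 → Fin L,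
      ind (Bad 𝐐 (mat hq g (MM X δ s ρ α) u)) ≤
      288 ^ 3 * 216 * (Nat.log 2 (2 * (2 * (𝐦 * L)) ^ 2) + 1) * 12 ^ Fintype.card (JJ D) *
          (𝐐 : ℕ) * 𝐩 / ((𝐦 : ℕ) * L : ℝ) ^ 3 *
        (4 / (𝐩 : ℝ) ^ 2 * ∏ i, (1 + q (inl i) * (1 / (U i : ℝ) ^ 4))) +
      27 * 288 ^ 2 * 5 * (𝐦 : ℕ) ^ 13 / ((𝐦 : ℕ) * L : ℝ) ^ 4 +
      72 ^ 3 * 12 ^ Fintype.card (JJ D) / (L : ℝ) ^ 3 *
        ((2160 / (𝐏 : ℝ) ^ 4 + 8000 / ((𝐏 : ℝ) ^ 3 * 𝐪 ^ 3) *
          (𝐪 * (2 / (U none : ℝ)) + 𝐪 ^ 2 * (1 / (U none : ℝ) ^ 4))) *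
          (Nat.log 2 (2 * (2 * (𝐦 * L)) ^ 2) + 1)) := by
  have : ∀ i, Nonempty (Fin (U i)) := fun i => ⟨⟨0, hU i⟩⟩
  have : Nonempty (CT (ZMod 𝐏)) := ⟨⟨⟨1, one_ne_zero⟩, 0⟩⟩
  have hpi : ∀ i, ((𝐩 : ℕ) : ZMod (q (inl i))) ≠ 0 := fun i => cast_ne hq inr_ne_inl
  refine (expect_le_expect fun s _ => expect_le_expect fun ρ _ => expect_le_expect fun α _ =>
    bad_point hq X δ hbig hX hU hQP hL s ρ α).trans ?_
  simp only [expect_add_distrib, ← mul_expect, Fintype.expect_const]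
  gcongr
  · refine le_trans (expect_le_expect fun s _ => mul_le_mul_of_nonneg_left
      (b := 𝔼 ρ : ∀ i, Fin 3 → Fin (U i) × Fin (U i), _)
      (c := ∏ i, (1 + q (inl i) * (1 / (U i : ℝ) ^ 4))) ?_ ?_) ?_
    · rw [expect_prod_pi fun i (ρ : Fin 3 → Fin (U i) × Fin (U i)) => 1 + q (inl i) *
        ind (2 ≤ df (cols fun l => red (q (inl i)) (sv (base X i (s l)) 𝐩 (ρ l))))]
      refine prod_le_prod (fun i _ => expect_nonneg fun ρ _ =>
        add_nonneg zero_le_one (mul_nonneg (by positivity) (ind_nonneg _))) fun i _ => ?_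
      rw [expect_add_distrib, ← mul_expect, Fintype.expect_const]
      gcongr
      exact prob_df_two (hpi i) (base_ne X hbig hU i (s 0)).2 (hU i) (fun l => base X i (s l))
        (base_ne X hbig hU i (s 0)).1
    · exact add_nonneg (ind_nonneg _) (mul_nonneg (by positivity) (ind_nonneg _))
    · rw [← expect_mul]
      gcongr
      exact avg_s
  · refine le_trans (expect_le_expect fun ρ _ => avg_alpha h2 hδ (x := ((𝐩 : ℕ) : ZMod 𝐪))
      (Z := 2 * (2 * (𝐦 * L)) ^ 2) (hpi none) (fun l => by simp [red, sv]) fun n hn =>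
        ⟨(mem_filter.1 hn).2, mem_box.1 (mem_filter.1 hn).1⟩) ?_
    rw [← expect_mul, expect_add_distrib, Fintype.expect_const, ← mul_expect,
      expect_eval (T := fun i => Fin 3 → Fin (U i) × Fin (U i)) none fun ρ =>
        𝐪 * ind (1 ≤ df (cols fun l => red 𝐪 (sv ![𝐩, 0, 0] 𝐩 (ρ l)))) +
          𝐪 ^ 2 * ind (2 ≤ df (cols fun l => red 𝐪 (sv ![𝐩, 0, 0] 𝐩 (ρ l)))),
      expect_add_distrib, ← mul_expect, ← mul_expect]
    have hb := base_ne X hbig hU none 0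
    gcongr
    · exact prob_df_one (hpi none) hb.2 (hU none)
    · exact prob_df_two (hpi none) hb.2 (hU none) (fun _ => ![𝐩, 0, 0]) hb.1

end Crest.Agent.R32
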