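import Crest.Agent.R32.Main3

/-!
Row 32: from probabilities to point sets.
-/

set_option autoImplicit false
set_option linter.unusedSectionVars false

namespace Crest.Agent.R32

open Finset Matrix Sum
open scoped BigOperators

/-- `n` points of the unit square with all triangles of area at least `a`. -/
def Conf (n : ℕ) (a : ℝ) : Prop :=
  ∃ P : Finset (ℝ × ℝ), P.card = n ∧
    (∀ p ∈ P, 0 ≤ p.1 ∧ p.1 ≤ 1 ∧ 0 ≤ p.2 ∧ p.2 ≤ 1) ∧
    ∀ p ∈ P, ∀ q ∈ P, ∀ r ∈ P, p ≠ q → p ≠ r → q ≠ r →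
      a ≤ |(q.1 - p.1) * (r.2 - p.2) - (q.2 - p.2) * (r.1 - p.1)| / 2

theorem Conf.mono {n : ℕ} {a b : ℝ} (h : Conf n a) (hab : b ≤ a) : Conf n b := by
  obtain ⟨P, h1, h2, h3⟩ := h
  exact ⟨P, h1, h2, fun p hp q hq r hr e1 e2 e3 => hab.trans (h3 p hp q hq r hr e1 e2 e3)⟩

theorem conf_of {n R Q : ℕ} (hR : 0 < R) (x : Fin n → V)
    (hx : ∀ i c, (if c = 0 then (R : ℤ) else 0) ≤ x i c ∧ x i c ≤ (if c = 0 then (R : ℤ) else 0) + R)
    (h2 : ∀ i j, i ≠ j → x i ⨯₃ x j ≠ 0)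
    (h3 : ∀ τ : Fin 3 → Fin n, Function.Injective τ → ¬ Bad Q (cols fun l => x (τ l))) :
    Conf n (Q / (32 * (R : ℝ) ^ 3)) := by
  classical
  have hR' : (0 : ℝ) < R := by exact_mod_cast hR
  have a0 : ∀ i, (R : ℝ) ≤ x i 0 ∧ (x i 0 : ℝ) ≤ R + R := fun i => by
    have := hx i 0
    simp only [if_true] at this
    exact_mod_cast this
  have a1 : ∀ i c, c ≠ 0 → (0 : ℝ) ≤ x i c ∧ (x i c : ℝ) ≤ R := fun i c hc => by
    have := hx i c
    simp only [hc, if_false, zero_add] at this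
    exact_mod_cast this
  have a2 : ∀ i, (0 : ℝ) < x i 0 := fun i => hR'.trans_le (a0 i).1
  set f : Fin n → ℝ × ℝ := fun i => ((x i 1 : ℝ) / x i 0, (x i 2 : ℝ) / x i 0) with hf
  have hinj : Function.Injective f := fun i j e => by
    by_contra hij
    refine h2 i j hij ?_
    simp only [hf, Prod.mk.injEq] at e
    rw [div_eq_div_iff (a2 i).ne' (a2 j).ne', div_eq_div_iff (a2 i).ne' (a2 j).ne'] at e
    have e1 : x i 1 * x j 0 = x j 1 * x i 0 := by exact_mod_cast e.1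
    have e2 : x i 2 * x j 0 = x j 2 * x i 0 := by exact_mod_cast e.2
    have e3 : x i 0 ≠ 0 := by exact_mod_cast (a2 i).ne'
    have e4 : x i 1 * x j 2 = x i 2 * x j 1 :=
      mul_left_cancel₀ e3 (by linear_combination x i 2 * e1 - x i 1 * e2)
    funext c
    fin_cases c <;> simp [cross_apply] <;> linarith
  refine ⟨univ.image f, by rw [card_image_of_injective _ hinj, card_univ, Fintype.card_fin],
    fun p hp => ?_, fun p hp q hq r hr e1 e2 e3 => ?_⟩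
  · obtain ⟨i, -, rfl⟩ := mem_image.1 hp
    have b1 := a1 i 1 (by decide)
    have b2 := a1 i 2 (by decide)
    exact ⟨div_nonneg b1.1 (a2 i).le, (div_le_one (a2 i)).2 (b1.2.trans (a0 i).1),
      div_nonneg b2.1 (a2 i).le, (div_le_one (a2 i)).2 (b2.2.trans (a0 i).1)⟩
  obtain ⟨i, -, rfl⟩ := mem_image.1 hp
  obtain ⟨j, -, rfl⟩ := mem_image.1 hq
  obtain ⟨k, -, rfl⟩ := mem_image.1 hr
  have hτ : Function.Injective ![i, j, k] := fun a b e => by
    have := hinj.ne_iff.1 e1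
    have := hinj.ne_iff.1 e2
    have := hinj.ne_iff.1 e3
    fin_cases a <;> fin_cases b <;> simp_all [eq_comm]
  have h4 : ¬ 2 * |(cols fun l => x (![i, j, k] l)).det| ≤ Q := fun h =>
    h3 _ hτ ⟨h, fun l l' hl => h2 _ _ (hτ.ne hl)⟩
  have h5 : (Q : ℝ) ≤ 2 * |(((cols fun l => x (![i, j, k] l)).det : ℤ) : ℝ)| := by
    exact_mod_cast (not_le.1 h4).le
  have h6 : ((f j).1 - (f i).1) * ((f k).2 - (f i).2) - ((f j).2 - (f i).2) * ((f k).1 - (f i).1) =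
      (((cols fun l => x (![i, j, k] l)).det : ℤ) : ℝ) / (x i 0 * x j 0 * x k 0) := by
    have := (a2 i).ne'
    have := (a2 j).ne'
    have := (a2 k).ne'
    simp [hf, det_fin_three]
    field_simp
    ring
  have h7 : (0 : ℝ) < x i 0 * x j 0 * x k 0 := mul_pos (mul_pos (a2 i) (a2 j)) (a2 k)
  have h8 : (x i 0 * x j 0 * x k 0 : ℝ) ≤ (R + R) * (R + R) * (R + R) := by
    have := (a2 j).le
    have := (a2 k).le
    gcongr
    exacts [(a0 i).2, (a0 j).2, (a0 k).2]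
  rw [h6, abs_div, abs_of_pos h7]
  calc _ ≤ 2 * |(((cols fun l => x (![i, j, k] l)).det : ℤ) : ℝ)| / (32 * (R : ℝ) ^ 3) := by gcongr
    _ = |(((cols fun l => x (![i, j, k] l)).det : ℤ) : ℝ)| / ((R + R) * (R + R) * (R + R)) / 2 := by
      field_simp; ring
    _ ≤ _ := by gcongr

theorem prob_pair {J : Type} [Fintype J] [DecidableEq J] {q : J → ℕ} [hp : ∀ j, Fact (q j).Prime]
    (hq : Function.Injective q) {L : ℕ} (hL : 0 < L) {T : Type} [Fintype T] [Nonempty T]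
    (a : T → ∀ j, Fin 3 → ZMod (q j)) :
    𝔼 ω : Fin 2 → T × (Fin 3 → Fin L),
      ind (pos hq L (a (ω 0).1) (ω 0).2 ⨯₃ pos hq L (a (ω 1).1) (ω 1).2 = 0) ≤ 1 / (L : ℝ) ^ 2 := by
  refine (expect_ind_le_of_inj (fun ω => (ω 0, (ω 1).1, (ω 1).2 0)) fun ω ω' h h' e => ?_).trans
    (le_of_eq ?_)
  · simp only [Prod.mk.injEq] at e
    obtain ⟨e0, e1, e2⟩ := e
    rw [← e0, ← e1] at h'
    have h0 : pos hq L (a (ω 0).1) (ω 0).2 0 ≠ 0 := by
      have h1 := (pos_mem hq (a (ω 0).1) (ω 0).2 0).1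
      have h2 : 0 < (∏ j, q j) * L := mul_pos prod_q_pos hL
      simp only [if_true] at h1
      omega
    have h3 : (ω 1).2 = (ω' 1).2 := pos_inj hq (a (ω 1).1) (funext fun c => by
      have b := cross_eq_zero_iff.1 h 0 c
      have b' := cross_eq_zero_iff.1 h' 0 c
      have b0 : pos hq L (a (ω 1).1) (ω 1).2 0 = pos hq L (a (ω 1).1) (ω' 1).2 0 := by
        simp only [pos, e2]
      exact mul_left_cancel₀ h0 (by rw [b, b', b0]))
    funext l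
    fin_cases l
    exacts [e0, Prod.ext e1 h3]
  · have : (0 : ℝ) < Fintype.card T := by exact_mod_cast Fintype.card_pos
    have : (0 : ℝ) < L := by exact_mod_cast hL
    simp only [Fintype.card_prod, Fintype.card_pi, prod_const, card_univ, Fintype.card_fin]
    push_cast
    field_simp

variable {D : Type} [Fintype D] [DecidableEq D]
variable {q : JJ D → ℕ} [hp : ∀ j, Fact (q j).Prime] (hq : Function.Injective q) {U : II D → ℕ}

local notation "𝐩" => q (inr false)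
local notation "𝐏" => q (inr true)
local notation "𝐐" => ∏ i : II D, q (inl i)
local notation "𝐦" => ∏ j : JJ D, q j

variable (X : D → ZMod (q (inr false)) × ZMod (q (inr false)) → Fin 3 → ZMod (q (inr false)))
  (δ : ZMod (q (inr true))) (hU : ∀ i, 0 < U i) {L : ℕ} (hL : 0 < L)

include hU hL in
open Classical in
theorem conf_of_avg {ε : ℝ}
    (h : 𝔼 s : Fin 3 → ZMod 𝐩 × ZMod 𝐩, 𝔼 ρ : ∀ i, Fin 3 → Fin (U i) × Fin (U i),
      𝔼 α : Fin 3 → CT (ZMod 𝐏), 𝔼 g ∈ Fintype.piFinset (GG q), 𝔼 u : Fin 3 → Fin 3 → Fin L,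
      ind (Bad 𝐐 (mat hq g (MM X δ s ρ α) u)) ≤ ε) {n : ℕ}
    (hn : (2 * n : ℝ) ^ 3 * ε + (2 * n : ℝ) ^ 2 * (1 / (L : ℝ) ^ 2) ≤ n) :
    Conf n ((𝐐 : ℕ) / (32 * ((𝐦 * L : ℕ) : ℝ) ^ 3)) := by
  have : ∀ i, Nonempty (Fin (U i)) := fun i => ⟨⟨0, hU i⟩⟩
  have : Nonempty (Fin L) := ⟨⟨0, hL⟩⟩
  have : Nonempty (CT (ZMod 𝐏)) := ⟨⟨⟨1, one_ne_zero⟩, 0⟩⟩
  simp only [expect_comm univ (Fintype.piFinset (GG q))] at h
  obtain ⟨g, -, hg⟩ := exists_le_of_expect_le (Fintype.piFinset_nonempty.2 (goodG hq).ne) h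
  set T := (ZMod 𝐩 × ZMod 𝐩) × (∀ i, Fin (U i) × Fin (U i)) × CT (ZMod 𝐏)
  set a : T → ∀ j, Fin 3 → ZMod (q j) := fun t j => g j *ᵥ res X δ t.1 t.2.1 t.2.2 j
  let e : (Fin 3 → T × (Fin 3 → Fin L)) ≃ (Fin 3 → ZMod 𝐩 × ZMod 𝐩) ×
      (∀ i, Fin 3 → Fin (U i) × Fin (U i)) × (Fin 3 → CT (ZMod 𝐏)) × (Fin 3 → Fin 3 → Fin L) :=
    ⟨fun ω => (fun l => (ω l).1.1, fun i l => (ω l).1.2.1 i, fun l => (ω l).1.2.2, fun l => (ω l).2),
      fun x l => ((x.1 l, fun i => x.2.1 i l, x.2.2.1 l), x.2.2.2 l), fun _ => rfl, fun _ => rfl⟩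
  have h3 : 𝔼 ω : Fin 3 → T × (Fin 3 → Fin L),
      ind (Bad 𝐐 (cols fun l => pos hq L (a (ω l).1) (ω l).2)) ≤ ε := by
    refine (Fintype.expect_equiv e _
      (fun x => ind (Bad 𝐐 (mat hq g (MM X δ x.1 x.2.1 x.2.2.1) x.2.2.2))) fun ω => rfl).trans_le ?_
    simpa only [← univ_product_univ, expect_product] using hg
  obtain ⟨f, f3, f2⟩ := deletion _ _ h3 (prob_pair hq hL a) hn
  refine conf_of (mul_pos prod_q_pos hL) (fun i => pos hq L (a (f i).1) (f i).2)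
    (fun i c => pos_mem hq _ _ c) (fun i j hij => f2 ![i, j] fun a b e => ?_) f3
  fin_cases a <;> fin_cases b <;> simp_all [eq_comm]

end Crest.Agent.R32
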