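import Crest.Agent.R32.Main4

/-!
Row 32: the choice of the primes.
-/

set_option autoImplicit false
set_option linter.unusedSectionVars false

namespace Crest.Agent.R32

open Finset Matrix Sum
open scoped BigOperators

theorem num_bound {c β b lg σ Q₀ k P p L U m : ℝ} (hc : 0 ≤ c) (hb : b ≤ β) (hb0 : 0 ≤ b)
    (h1 : 1 ≤ lg) (hσ : lg ≤ σ)
    (hQ : 0 < Q₀) (hk : 0 < k) (hP : 0 < P) (hp : 0 < p) (hL : 0 < L) (hU : 0 < U)
    (hm : m = Q₀ * k * (P * p)) (a1 : m ^ 13 ≤ m * L) (a2 : p ≤ Q₀ * k)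
    (a3 : p ^ 4 * (Q₀ * k) ^ 2 ≤ P) (a4 : p ^ 4 * Q₀ ^ 2 ≤ U) (a5 : k ≤ U ^ 3) :
    288 ^ 3 * 216 * lg * c * (Q₀ * k) * p / (m * L) ^ 3 * (4 / p ^ 2 * b) +
      27 * 288 ^ 2 * 5 * m ^ 13 / (m * L) ^ 4 +
      72 ^ 3 * c / L ^ 3 * ((2160 / P ^ 4 + 8000 / (P ^ 3 * k ^ 3) *
          (k * (2 / U) + k ^ 2 * (1 / U ^ 4))) * lg) ≤
      (288 ^ 3 * 864 * c * β + 27 * 288 ^ 2 * 5 + 72 ^ 3 * 26160 * c) *
        (σ * (Q₀ * k) / (p * (m * L) ^ 3)) := by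
  have hm0 : 0 < m := by rw [hm]; positivity
  have hβ : 0 ≤ β := hb0.trans hb
  have hσ1 : 1 ≤ σ := h1.trans hσ
  rw [add_mul _ (72 ^ 3 * 26160 * c), add_mul (288 ^ 3 * 864 * c * β)]
  refine add_le_add (add_le_add ?_ ?_) ?_
  · calc _ = 288 ^ 3 * 864 * c * b * (lg * (Q₀ * k) / (p * (m * L) ^ 3)) := by field_simp; ring
      _ ≤ _ := by gcongr
  · calc _ ≤ 27 * 288 ^ 2 * 5 * (m * L) / (m * L) ^ 4 := by gcongr
      _ = 27 * 288 ^ 2 * 5 * (1 * p / (p * (m * L) ^ 3)) := by field_simp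
      _ ≤ _ := by gcongr
  · have b1 : 1 / P ≤ 1 / (p ^ 4 * (Q₀ * k) ^ 2) := by gcongr
    have b2 : 1 / U ≤ 1 / (p ^ 4 * Q₀ ^ 2) := by gcongr
    have b3 : 1 / U ^ 3 ≤ 1 / k := by gcongr
    calc _ = 72 ^ 3 * c / L ^ 3 * ((2160 / P ^ 3 * (1 / P) + 8000 / (P ^ 3 * k ^ 3) *
          (k * 2 * (1 / U) + k ^ 2 * (1 / U ^ 3 * (1 / U)))) * lg) := by field_simp
      _ ≤ 72 ^ 3 * c / L ^ 3 * ((2160 / P ^ 3 * (1 / (p ^ 4 * (Q₀ * k) ^ 2)) +
          8000 / (P ^ 3 * k ^ 3) * (k * 2 * (1 / (p ^ 4 * Q₀ ^ 2)) +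
            k ^ 2 * (1 / k * (1 / (p ^ 4 * Q₀ ^ 2))))) * σ) := by gcongr
      _ = _ := by rw [hm]; field_simp; ring

variable {D : Type} [Fintype D] [DecidableEq D]

/-- Size conditions on the primes. -/
structure Par (B : ℕ) (q : JJ D → ℕ) (U : II D → ℕ) : Prop where
  inj : Function.Injective q
  big : ∀ i, 4 * Fintype.card (II D) * (12 * q (inr false) ^ 3 * U i ^ 2) ≤ q (inl i)
  pos : ∀ i, 0 < U i
  le : ∀ i, q (inl i) ≤ B * U i ^ 4
  p3 : 3 < q (inr false)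
  pQ : q (inr false) ≤ ∏ i, q (inl i)
  hP : q (inr false) ^ 4 * (∏ i, q (inl i)) ^ 2 ≤ q (inr true)
  hU : q (inr false) ^ 4 * cof q none ^ 2 ≤ U none
  hk : q (inl none) ≤ U none ^ 3

/-- The form of bounded rank exists over every large prime field. -/
def HasForm (D : Type) [Fintype D] : Prop :=
  ∀ (p : ℕ) [Fact p.Prime], (6 : ZMod p) ≠ 0 → ∀ κ : D → ZMod p, (∀ i, κ i ≠ 0) →
    ∃ X : D → ZMod p × ZMod p → Fin 3 → ZMod p, ∀ s : Fin 3 → ZMod p × ZMod p,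
      Function.Injective s → ∑ i, κ i * (cols fun l => X i (s l)).det ≠ (cols fun l => X0 (s l)).det

theorem conf_main (hD : HasForm D) (B : ℕ) : ∃ K : ℝ, 1 ≤ K ∧ ∀ (q : JJ D → ℕ) (U : II D → ℕ),
    (∀ j, (q j).Prime) → Par B q U → ∀ (L n : ℕ) (σ : ℝ), (∏ j, q j) ^ 13 ≤ (∏ j, q j) * L →
    (Nat.log 2 (2 * (2 * ((∏ j, q j) * L)) ^ 2) + 1 : ℝ) ≤ σ → 8 * n ≤ L ^ 2 →
    K * σ * n ^ 2 * (∏ i, q (inl i) : ℕ) ≤ q (inr false) * ((∏ j, q j) * L : ℕ) ^ 3 →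
    Conf n ((∏ i, q (inl i) : ℕ) / (32 * (((∏ j, q j) * L : ℕ) : ℝ) ^ 3)) := by
  set c : ℝ := 12 ^ Fintype.card (JJ D) with hc
  set β : ℝ := (1 + B) ^ Fintype.card (II D) with hβ
  have hc0 : 0 ≤ c := by positivity
  have hβ0 : 0 ≤ β := by positivity
  set K : ℝ := 288 ^ 3 * 864 * c * β + 27 * 288 ^ 2 * 5 + 72 ^ 3 * 26160 * c with hK
  have hK1 : 1 ≤ K := by rw [hK]; nlinarith [mul_nonneg hc0 hβ0]
  refine ⟨16 * K, by linarith, fun q U hp h L n σ a1 a2 a3 a4 => ?_⟩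
  have : ∀ j, Fact (q j).Prime := fun j => ⟨hp j⟩
  have hm0 : 0 < ∏ j, q j := prod_q_pos
  have hQ0 : 0 < ∏ i, q (inl i) := prod_pos fun i _ => (hp _).pos
  have hL : 0 < L := Nat.pos_of_mul_pos_left (lt_of_lt_of_le (pow_pos hm0 13) a1)
  have p3 := h.p3
  have hQP : ∏ i, q (inl i) < q (inr true) := by
    refine lt_of_lt_of_le ?_ h.hP
    have h1 : 1 < q (inr false) ^ 4 := Nat.one_lt_pow (by norm_num) (by omega)
    nlinarith
  have h6 : (6 : ZMod (q (inr false))) ≠ 0 := fun e => by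
    have h1 : q (inr false) ∣ 2 * 3 := (ZMod.natCast_eq_zero_iff 6 _).1 (by exact_mod_cast e)
    rcases (Nat.Prime.dvd_mul (hp _)).1 h1 with h2 | h2 <;> have := Nat.le_of_dvd (by norm_num) h2 <;>
      omega
  have hP2 : 2 < q (inr true) := by have := h.pQ; omega
  have h2 : (2 : ZMod (q (inr true))) ≠ 0 := fun e => by
    have h1 : q (inr true) ∣ 2 := (ZMod.natCast_eq_zero_iff 2 _).1 (by exact_mod_cast e)
    have := Nat.le_of_dvd (by norm_num) h1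
    omega
  obtain ⟨δ, hδ⟩ := FiniteField.exists_nonsquare (F := ZMod (q (inr true)))
    (by rw [ZMod.ringChar_zmod_n]; omega)
  obtain ⟨X, hX⟩ := hD (q (inr false)) h6 (fun i => (cof q (some i) : ZMod (q (inr false))))
    fun i => cof_ne h.inj _ fun _ _ => inr_ne_inl
  have hq0 : ∀ j, (0 : ℝ) < q j := fun j => by exact_mod_cast (hp j).pos
  have hL' : (0 : ℝ) < L := by exact_mod_cast hL
  have hU' : ∀ i, (0 : ℝ) < U i := fun i => by exact_mod_cast h.pos i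
  have eQ : ((∏ i, q (inl i) : ℕ) : ℝ) = cof q none * q (inl none) := by
    rw [← cof_mul none, Nat.cast_mul]
  have hc0' : (0 : ℝ) < cof q none := by
    exact_mod_cast prod_pos fun i _ => (hp (inl i)).pos
  have key := bad_avg h.inj X δ h.big hX h.pos hQP hL h2 hδ
  rw [eQ] at key
  refine conf_of_avg h.inj X δ h.pos hL (key.trans (num_bound (β := β) hc0 ?_ ?_
    (le_add_of_nonneg_left (by positivity)) a2 hc0' (hq0 _) (hq0 _) (hq0 _) hL' (hU' _) ?_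
    (by exact_mod_cast a1) (by rw [← eQ]; exact_mod_cast h.pQ) (by rw [← eQ]; exact_mod_cast h.hP)
    (by exact_mod_cast h.hU) (by exact_mod_cast h.hk))) ?_
  · rw [hβ, ← card_univ, ← prod_const]
    refine prod_le_prod (fun i _ => by have := hU' i; have := hq0 (inl i); positivity)
      fun i _ => ?_
    have := hU' i
    rw [add_le_add_iff_left, mul_one_div, div_le_iff₀ (by positivity)]
    exact_mod_cast h.le i
  · exact prod_nonneg fun i _ => by have := hU' i; have := hq0 (inl i); positivity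
  · rw [← eQ, m_eq]; push_cast; rfl
  · rw [← eQ, ← hK]
    have b1 : (8 * n : ℝ) ≤ L ^ 2 := by exact_mod_cast a3
    have b2 : (0 : ℝ) < q (inr false) * ((∏ j, q j : ℕ) * L) ^ 3 := by
      have := hq0 (inr false); positivity
    rw [Nat.cast_mul] at a4
    have b3 : (2 * n : ℝ) ^ 2 * (1 / (L : ℝ) ^ 2) ≤ n / 2 := by
      rw [mul_one_div, div_le_iff₀ (by positivity)]
      nlinarith [(Nat.cast_nonneg n : (0 : ℝ) ≤ n)]
    have b4 : (2 * n : ℝ) ^ 3 * (K * (σ * (∏ i, q (inl i) : ℕ) /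
        (q (inr false) * ((∏ j, q j : ℕ) * L) ^ 3))) ≤ n / 2 := by
      rw [← mul_div_assoc, ← mul_div_assoc, div_le_iff₀ b2]
      nlinarith [(Nat.cast_nonneg n : (0 : ℝ) ≤ n)]
    linarith

end Crest.Agent.R32
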