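import Crest.Agent.R32.Main5

/-!
Row 32: existence of the primes, and the final choice of parameters.
-/

set_option autoImplicit false
set_option linter.unusedSectionVars false

namespace Crest.Agent.R32

open Finset Matrix Sum Filter
open scoped BigOperators

variable {D : Type} [Fintype D] [DecidableEq D]

theorem exists_par (D : Type) [Fintype D] [DecidableEq D] : ∃ B E p₀ : ℕ, ∀ p, p.Prime → p₀ ≤ p →
    ∃ (q : JJ D → ℕ) (U : II D → ℕ), (∀ j, (q j).Prime) ∧ Par B q U ∧ q (inr false) = p ∧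
      ∏ j, q j ≤ p ^ E := by
  obtain ⟨r, hr⟩ : ∃ r : ℕ → ℕ, ∀ N, 0 < N → (r N).Prime ∧ N < r N ∧ r N ≤ 2 * N := by
    have : ∀ N : ℕ, ∃ r : ℕ, 0 < N → r.Prime ∧ N < r ∧ r ≤ 2 * N := fun N => by
      rcases N.eq_zero_or_pos with h | h
      · exact ⟨0, fun h' => by omega⟩
      · exact (Nat.exists_prime_lt_and_le_two_mul N h.ne').imp fun r hr _ => hr
    exact ⟨_, fun N => (this N).choose_spec⟩
  set d := Fintype.card D with hd
  set e := Fintype.equivFin D
  refine ⟨2 ^ d, 51 + 135 * d, 2 ^ d + 48 * Fintype.card (II D) + 4, fun p hp h0 => ?_⟩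
  have p0 : 0 < p := hp.pos
  have d0 : 0 < 2 ^ d := by positivity
  have p4 : 4 ≤ p := le_of_add_le_right h0
  have pd : 2 ^ d ≤ p := le_of_add_le_left (le_of_add_le_left h0)
  set f : D → ℕ := fun i => r (2 ^ (e i : ℕ) * p ^ 8) with hf
  have f1 := fun i => hr (2 ^ (e i : ℕ) * p ^ 8) (by positivity)
  have f2 : ∀ i, p ^ 8 < f i := fun i =>
    lt_of_le_of_lt (Nat.le_mul_of_pos_left _ (by positivity)) (f1 i).2.1
  have f3 : ∀ i (k : ℕ), e i < k → f i ≤ 2 ^ k * p ^ 8 := fun i k h => (f1 i).2.2.trans (by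
    rw [← mul_assoc, ← pow_succ']
    gcongr
    · norm_num
    · exact h)
  have f4 : Function.Injective f := fun i j h => by
    refine e.injective (Fin.ext ?_)
    rcases lt_trichotomy (e i : ℕ) (e j) with h' | h' | h'
    · exact absurd h ((f3 i _ h').trans_lt (f1 j).2.1).ne
    · exact h'
    · exact absurd h ((f3 j _ h').trans_lt (f1 i).2.1).ne'
  set Q₀ := ∏ i, f i with hQ₀
  have Q0 : 0 < Q₀ := prod_pos fun i _ => (f1 i).1.pos
  have Q1 : Q₀ ≤ p ^ (9 * d) := by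
    rw [pow_mul, hd, ← card_univ]
    refine prod_le_pow_card _ _ _ fun i _ => (f3 i d (e i).2).trans ?_
    rw [pow_succ' p 8]
    gcongr
  set W := p ^ 5 * Q₀ ^ 2 with hW
  have W0 : 0 < W := by positivity
  have W1 : W ≤ p ^ (5 + 18 * d) := by
    calc W ≤ p ^ 5 * (p ^ (9 * d)) ^ 2 := by rw [hW]; gcongr
      _ = _ := by ring
  have W2 : p ^ 5 ≤ W := Nat.le_mul_of_pos_right _ (by positivity)
  have W3 : Q₀ ≤ W := (Nat.le_self_pow two_ne_zero _).trans (Nat.le_mul_of_pos_left _ (by positivity))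
  set k := r (p ^ 4 * W ^ 2) with hk
  have k1 := hr (p ^ 4 * W ^ 2) (by positivity)
  have k2 : k ≤ p ^ 5 * W ^ 2 := k1.2.2.trans (by
    rw [← mul_assoc, pow_succ' p 4]; gcongr; omega)
  have k3 : k ≤ W ^ 3 := k2.trans (by rw [pow_succ' W 2]; gcongr)
  have k4 : k ≤ p ^ (15 + 36 * d) := by
    calc k ≤ p ^ 5 * (p ^ (5 + 18 * d)) ^ 2 := k2.trans (by gcongr)
      _ = _ := by ring
  have k5 : W < k := lt_of_le_of_lt
    ((Nat.le_self_pow two_ne_zero _).trans (Nat.le_mul_of_pos_left _ (by positivity))) k1.2.1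
  have k6 : p < k := lt_of_le_of_lt ((Nat.le_self_pow (by norm_num) _).trans W2) k5
  set P := r (p ^ 4 * (k * Q₀) ^ 2) with hP
  have P1 := hr (p ^ 4 * (k * Q₀) ^ 2) (by have := k1.1.pos; positivity)
  have P2 : P ≤ p ^ (35 + 90 * d) := by
    calc P ≤ 2 * (p ^ 4 * (k * Q₀) ^ 2) := P1.2.2
      _ ≤ p * (p ^ 4 * (p ^ (15 + 36 * d) * p ^ (9 * d)) ^ 2) := by gcongr; omega
      _ = _ := by ring
  have P3 : k < P := lt_of_le_of_lt ((Nat.le_mul_of_pos_right _ Q0).trans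
    ((Nat.le_self_pow two_ne_zero _).trans (Nat.le_mul_of_pos_left _ (by positivity)))) P1.2.1
  have f5 : ∀ i, p < f i := fun i => lt_of_le_of_lt (Nat.le_self_pow (by norm_num) _) (f2 i)
  have f6 : ∀ i, f i < k := fun i => lt_of_le_of_lt
    ((Nat.le_of_dvd Q0 (dvd_prod_of_mem _ (mem_univ i))).trans W3) k5
  let q : JJ D → ℕ := Sum.elim (fun i => i.elim k f) fun b => cond b P p
  have eQ : ∏ i, q (inl i) = k * Q₀ := Fintype.prod_option _
  have ec : cof q none = Q₀ :=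
    Nat.eq_of_mul_eq_mul_right k1.1.pos ((prod_erase_mul univ (fun i' => q (inl i'))
      (mem_univ none)).trans (eQ.trans (mul_comm _ _)))
  refine ⟨q, fun i => i.elim W fun _ => p ^ 2, ?_, ⟨?_, ?_, ?_, ?_, p4, ?_, ?_, ?_, k3⟩, rfl, ?_⟩
  · rintro ((_ | i) | _ | _)
    exacts [k1.1, (f1 i).1, hp, P1.1]
  · rintro ((_ | i) | _ | _) ((_ | j) | _ | _) h <;>
      simp only [q, Sum.elim_inl, Sum.elim_inr, Option.elim, cond] at h <;>
      first
      | rfl
      | rw [f4 h]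
      | omega
      | (have := f5 i; have := f6 i; omega)
      | (have := f5 j; have := f6 j; omega)
  · have h48 : 48 * Fintype.card (II D) ≤ p := le_of_add_le_right (le_of_add_le_left h0)
    rintro (_ | i)
    · refine le_trans ?_ k1.2.1.le
      calc _ = 48 * Fintype.card (II D) * (p ^ 3 * W ^ 2) := by simp only [q]; simp; ring
        _ ≤ p * (p ^ 3 * W ^ 2) := by gcongr
        _ = _ := by ring
    · refine le_trans ?_ (f2 i).le
      calc _ = 48 * Fintype.card (II D) * p ^ 7 := by simp only [q]; simp; ring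
        _ ≤ p * p ^ 7 := by gcongr
        _ = _ := by ring
  · rintro (_ | i)
    · exact W0
    · exact pow_pos p0 2
  · rintro (_ | i)
    · exact k3.trans ((Nat.pow_le_pow_right W0 (by norm_num)).trans (Nat.le_mul_of_pos_left _ d0))
    · exact (f3 i d (e i).2).trans (le_of_eq (by simp only [Option.elim]; ring))
  · rw [eQ]
    exact k6.le.trans (Nat.le_mul_of_pos_right _ Q0)
  · rw [eQ]
    exact P1.2.1.le
  · rw [ec]
    exact Nat.mul_le_mul_right _ (Nat.pow_le_pow_right p0 (by norm_num))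
  · rw [Fintype.prod_sum_type, Fintype.prod_bool, eQ]
    calc k * Q₀ * (P * p) ≤ p ^ (15 + 36 * d) * p ^ (9 * d) * (p ^ (35 + 90 * d) * p) := by gcongr
      _ = _ := by ring

theorem exists_thr (k : ℕ) : ∃ s₀ : ℕ, ∀ s, s₀ ≤ s → 8 * (s + 1) ^ k < 2 ^ s := by
  have h := (tendsto_pow_const_div_const_pow_of_one_lt k (one_lt_two (α := ℝ))).eventually_lt_const
    (show (0 : ℝ) < 1 / 16 by norm_num)
  obtain ⟨s₀, hs⟩ := eventually_atTop.1 h
  refine ⟨s₀, fun s h => ?_⟩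
  have := hs (s + 1) (by omega)
  rw [div_lt_div_iff₀ (by positivity) (by norm_num), pow_succ] at this
  have : (8 * ((s + 1 : ℕ) : ℝ) ^ k) < 2 ^ s := by linarith
  exact_mod_cast this

theorem conf_final (hD : HasForm D) : ∃ C N s₀ : ℕ, 0 < C ∧ 0 < N ∧ 0 < s₀ ∧ ∀ s n : ℕ, s₀ ≤ s →
    s ^ N ≤ n → n < (s + 1) ^ N → Conf n (s / (256 * C * (n : ℝ) ^ 2)) := by
  classical
  obtain ⟨B, E, p₀, hpar⟩ := exists_par D
  obtain ⟨K, hK, hconf⟩ := conf_main hD B
  set C := ⌈K⌉₊ with hC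
  have C0 : 0 < C := Nat.ceil_pos.2 (by linarith)
  obtain ⟨s₁, hs₁⟩ := exists_thr (2 * (60 * E + 3))
  refine ⟨C, 60 * E + 3, p₀ + s₁ + 8 * C, C0, by omega, by omega, fun s n hs h1 h2 => ?_⟩
  have s8 : 8 ≤ s := by omega
  have s0 : 0 < s := by omega
  obtain ⟨p, hp, p1, p2⟩ := Nat.exists_prime_lt_and_le_two_mul (s ^ 2) (by positivity)
  have p3 : s ≤ p := (Nat.le_self_pow two_ne_zero _).trans p1.le
  obtain ⟨q, U, hq, hP, e, hm⟩ := hpar p hp (by omega)
  have : ∀ j, Fact (q j).Prime := fun j => ⟨hq j⟩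
  have hpQ := hP.pQ
  have hme := m_eq (q := q)
  have hc := hconf q U hq hP
  have P0 := (hq (inr true)).pos
  rw [e] at hpQ hme hc
  generalize ∏ j, q j = m at hm hme hc
  generalize ∏ i, q (inl i) = Q at hpQ hme hc
  have hQm : Q ≤ m := hme ▸ Nat.le_mul_of_pos_right _ (mul_pos P0 hp.pos)
  have m0 : 0 < m := by omega
  have m1 : m ≤ s ^ (3 * E) := by
    rw [pow_mul]
    refine hm.trans (Nat.pow_le_pow_left (p2.trans ?_) _)
    rw [pow_succ' s 2]
    gcongr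
    omega
  have hpow : ∀ a, a ≤ 60 * E + 3 → s ^ a ≤ n := fun a h => (Nat.pow_le_pow_right s0 h).trans h1
  have hex : ∃ L, C * n ^ 2 * Q ≤ s * (m * L) ^ 3 := ⟨C * n ^ 2 * Q,
    ((Nat.le_mul_of_pos_left _ m0).trans (Nat.le_self_pow (by norm_num) _)).trans
      (Nat.le_mul_of_pos_left _ s0)⟩
  set L := Nat.find hex with hL
  have a1 : C * n ^ 2 * Q ≤ s * (m * L) ^ 3 := Nat.find_spec hex
  have a2 : n ^ 2 ≤ (m * L) ^ 3 := Nat.le_of_mul_le_mul_left (le_trans (by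
    calc s * n ^ 2 = 1 * n ^ 2 * s := by ring
      _ ≤ C * n ^ 2 * Q := by gcongr <;> omega) a1) s0
  have a3 : m ^ 13 ≤ m * L := (Nat.pow_le_pow_iff_left (n := 3) (by norm_num)).1 (by
    calc (m ^ 13) ^ 3 ≤ ((s ^ (3 * E)) ^ 13) ^ 3 := by gcongr
      _ = s ^ (60 * E) * s ^ (57 * E) := by ring
      _ ≤ n * n := by gcongr <;> exact hpow _ (by omega)
      _ ≤ _ := by rw [← sq]; exact a2)
  have a4 : 2 ≤ L := by
    by_contra h
    have : m ^ 1 < m ^ 13 := Nat.pow_lt_pow_right (by omega) (by norm_num)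
    have : m * L ≤ m * 1 := Nat.mul_le_mul_left _ (by omega)
    rw [pow_one] at *
    omega
  have a5 : s * (m * L) ^ 3 ≤ 8 * (C * n ^ 2 * Q) := by
    have := Nat.find_min hex (show L - 1 < L by omega)
    calc s * (m * L) ^ 3 ≤ s * (m * (2 * (L - 1))) ^ 3 := by gcongr; omega
      _ = 8 * (s * (m * (L - 1)) ^ 3) := by ring
      _ ≤ _ := by omega
  have a6 : m * L ≤ n := (Nat.pow_le_pow_iff_left (n := 3) (by norm_num)).1
    (Nat.le_of_mul_le_mul_left (a5.trans (by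
      have := hQm.trans (m1.trans (hpow _ (by omega)))
      calc 8 * (C * n ^ 2 * Q) = 8 * C * (n ^ 2 * Q) := by ring
        _ ≤ s * (n ^ 2 * n) := by gcongr; omega
        _ = s * n ^ 3 := by ring)) s0)
  have a7 : Nat.log 2 (2 * (2 * (m * L)) ^ 2) + 1 ≤ s := by
    have : 0 < L := by omega
    refine Nat.log_lt_of_lt_pow (by positivity)
      (lt_of_le_of_lt ?_ (hs₁ s (by omega)))
    calc 2 * (2 * (m * L)) ^ 2 ≤ 2 * (2 * (s + 1) ^ (60 * E + 3)) ^ 2 := by gcongr; omega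
      _ = _ := by ring
  have a8 : 8 * n ≤ L ^ 2 := Nat.le_of_mul_le_mul_left
    ((Nat.pow_le_pow_iff_left (n := 3) (by norm_num)).1 (by
      calc (m ^ 2 * (8 * n)) ^ 3 ≤ ((s ^ (3 * E)) ^ 2 * (s * n)) ^ 3 := by gcongr
        _ = s ^ (18 * E + 3) * n ^ 3 := by ring
        _ ≤ n * n ^ 3 := by gcongr; exact hpow _ (by omega)
        _ = (n ^ 2) ^ 2 := by ring
        _ ≤ ((m * L) ^ 3) ^ 2 := by gcongr
        _ = (m ^ 2 * L ^ 2) ^ 3 := by ring)) (pow_pos m0 2)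
  have a9 : C * s * n ^ 2 * Q ≤ p * (m * L) ^ 3 := by
    calc C * s * n ^ 2 * Q = s * (C * n ^ 2 * Q) := by ring
      _ ≤ s * (s * (m * L) ^ 3) := by gcongr
      _ = s ^ 2 * (m * L) ^ 3 := by ring
      _ ≤ _ := by gcongr
  refine (hc L n s a3 (by exact_mod_cast a7) a8 (le_trans (b := (C : ℝ) * s * n ^ 2 * Q) ?_
    (by exact_mod_cast a9))).mono ?_
  · gcongr
    exact Nat.le_ceil K
  · have n0 : 0 < n := lt_of_lt_of_le (pow_pos s0 _) h1
    have : 0 < m * L := mul_pos m0 (by omega)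
    rw [div_le_div_iff₀ (by positivity) (by positivity)]
    have : ((s * (m * L) ^ 3 : ℕ) : ℝ) ≤ (8 * (C * n ^ 2 * Q) : ℕ) := by exact_mod_cast a5
    push_cast at this ⊢
    linarith

end Crest.Agent.R32
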