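import Crest.Agent.R32.Del
import Crest.Agent.R32.Form

/-!
Row 32: degeneracy probabilities for small random vectors and for the paraboloid.
-/

set_option autoImplicit false

namespace Crest.Agent.R32

open Finset Matrix
open scoped BigOperators

/-- A small vector with two random coordinates. -/
def sv (x : V) (p : ℕ) {U : ℕ} (ρ : Fin U × Fin U) : V :=
  ![x 0, x 1 + p * (ρ.1 : ℕ), x 2 + p * (ρ.2 : ℕ)]

section small
variable {k p U : ℕ} [Fact k.Prime]

theorem fin_eq_of_cast (hp : (p : ZMod k) ≠ 0) (hU : U ≤ k) {a b : Fin U} {x : ZMod k}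
    (h : x + p * ((a : ℕ) : ZMod k) = x + p * ((b : ℕ) : ZMod k)) : a = b := by
  have h1 := mul_left_cancel₀ hp (add_left_cancel h)
  have h2 := congrArg ZMod.val h1
  rw [ZMod.val_cast_of_lt (a.2.trans_le hU), ZMod.val_cast_of_lt (b.2.trans_le hU)] at h2
  exact Fin.ext h2

theorem prob_df_two (hp : (p : ZMod k) ≠ 0) (hU : U ≤ k) (hU0 : 0 < U) (x : Fin 3 → V)
    (hx : ((x 0 0 : ℤ) : ZMod k) ≠ 0) :
    𝔼 ρ : Fin 3 → Fin U × Fin U, ind (2 ≤ df (cols fun l => red k (sv (x l) p (ρ l)))) ≤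
      1 / (U : ℝ) ^ 4 := by
  refine (expect_ind_le_of_inj (fun ρ => ρ 0) fun ρ ρ' h h' e => ?_).trans (le_of_eq ?_)
  · funext l
    have a := cross_eq_zero_iff.1 (col_cross_of_df h 0 l)
    have a' := cross_eq_zero_iff.1 (col_cross_of_df h' 0 l)
    have a1 := a 0 1
    have a2 := a 0 2
    have a1' := a' 0 1
    have a2' := a' 0 2
    simp [red, sv, e] at a1 a2 a1' a2'
    exact Prod.ext (fin_eq_of_cast hp hU (mul_left_cancel₀ hx (a1.trans a1'.symm)))
      (fin_eq_of_cast hp hU (mul_left_cancel₀ hx (a2.trans a2'.symm)))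
  · have : (U : ℝ) ≠ 0 := by positivity
    simp
    field_simp

theorem prob_df_one (hp : (p : ZMod k) ≠ 0) (hU : U ≤ k) (hU0 : 0 < U) :
    𝔼 ρ : Fin 3 → Fin U × Fin U,
      ind (1 ≤ df (cols fun l => red k (sv ![p, 0, 0] p (ρ l)))) ≤ 2 / (U : ℝ) := by
  have hU' : (U : ℝ) ≠ 0 := by positivity
  have h1 : 𝔼 ρ : Fin 3 → Fin U × Fin U, ind ((ρ 0).1 = (ρ 1).1) ≤ 1 / (U : ℝ) := by
    refine (expect_ind_le_of_inj (fun ρ => (ρ 0, (ρ 1).2, ρ 2)) fun ρ ρ' h h' e => ?_).trans
      (le_of_eq ?_)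
    · simp only [Prod.mk.injEq] at e
      funext l
      fin_cases l
      · exact e.1
      · exact Prod.ext (h.symm.trans (e.1 ▸ h')) e.2.1
      · exact e.2.2
    · simp
      field_simp
  have h2 : 𝔼 ρ : Fin 3 → Fin U × Fin U, ind ((ρ 0).1 ≠ (ρ 1).1 ∧
      (cols fun l => red k (sv ![p, 0, 0] p (ρ l))).det = 0) ≤ 1 / (U : ℝ) := by
    refine (expect_ind_le_of_inj (fun ρ => (ρ 0, ρ 1, (ρ 2).1)) fun ρ ρ' h h' e => ?_).trans
      (le_of_eq ?_)
    · simp only [Prod.mk.injEq] at e
      obtain ⟨e0, e1, e2⟩ := e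
      have a := h.2
      have a' := h'.2
      have b : (p : ZMod k) * ((ρ' 1).1 : ℕ) - p * ((ρ' 0).1 : ℕ) ≠ 0 := fun b =>
        h'.1 (fin_eq_of_cast hp hU (x := 0) (by rw [sub_eq_zero.1 b]))
      simp [det_fin_three, red, sv, e0, e1, e2] at a a'
      funext l
      fin_cases l
      · exact e0
      · exact e1
      · refine Prod.ext e2 (fin_eq_of_cast hp hU (x := 0) ?_)
        apply mul_left_cancel₀ (mul_ne_zero hp b)
        simp only [Fin.reduceFinMk]
        linear_combination a - a'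
    · simp
      field_simp
  refine le_trans (expect_le_expect fun ρ _ => ?_) ((expect_add_distrib _ _ _).trans_le
    ((add_le_add h1 h2).trans (le_of_eq (by ring))))
  refine ind_le (add_nonneg (ind_nonneg _) (ind_nonneg _)) fun h => ?_
  by_cases e : (ρ 0).1 = (ρ 1).1
  · rw [ind_pos e]; exact le_add_of_nonneg_right (ind_nonneg _)
  · rw [ind_pos (And.intro e (det_eq_zero_of_df h))]; exact le_add_of_nonneg_left (ind_nonneg _)

end small

section par
variable {F : Type} [Field F]

abbrev CT (F : Type) [Field F] : Type := {x : F // x ≠ 0} × F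

/-- Points of a paraboloid. -/
def pv (δ : F) (α : CT F) : Fin 3 → F := ![α.1.1, α.2, α.1.1 ^ 2 - δ * α.2 ^ 2]

def HH (n : Fin 3 → F) : Prop :=
  (n 2 = 0 ∧ n 0 + n 1 = 0) ∨ (n 1 = 0 ∧ n 0 + n 2 = 0) ∨ (n 0 = 0 ∧ n 1 + n 2 = 0)

theorem aniso {δ : F} (hδ : ¬ IsSquare δ) {a b : F} (h : a ^ 2 - δ * b ^ 2 = 0) : a = 0 ∧ b = 0 := by
  have hb : b = 0 := by
    by_contra hb
    exact hδ ⟨a / b, by field_simp; linear_combination -h⟩
  rw [hb] at h
  exact ⟨by simpa using h, hb⟩

theorem pv_pair {δ : F} (hδ : ¬ IsSquare δ) {α β : CT F} {a b : F} (hab : a ≠ 0 ∨ b ≠ 0)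
    (h : ∀ c, pv δ α c * a + pv δ β c * b = 0) : a + b = 0 ∧ α = β := by
  have h0 := h 0
  have h1 := h 1
  have h2 := h 2
  simp [pv] at h0 h1 h2
  have hα := α.1.2
  have hβ := β.1.2
  have ha : a ≠ 0 := fun e => by
    rw [e] at h0 hab
    simp [hβ] at h0 hab
    exact hab h0
  have hb : b ≠ 0 := fun e => by
    rw [e] at h0
    simp [hα, ha] at h0
  have hφ : α.1.1 ^ 2 - δ * α.2 ^ 2 ≠ 0 := fun e => hα (aniso hδ e).1
  have e : a + b = 0 := by
    apply mul_left_cancel₀ (mul_ne_zero ha hφ)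
    linear_combination b * h2 + (α.1.1 * a - β.1.1 * b) * h0 - δ * (α.2 * a - β.2 * b) * h1
  refine ⟨e, Prod.ext (Subtype.ext ?_) ?_⟩
  · apply mul_right_cancel₀ ha
    linear_combination h0 - β.1.1 * e
  · apply mul_right_cancel₀ ha
    linear_combination h1 - β.2 * e

variable [Fintype F] [DecidableEq F]

theorem card_CT : (Fintype.card F : ℝ) ^ 2 / 2 ≤ Fintype.card (CT F) := by
  have h : 2 ≤ Fintype.card F := Fintype.one_lt_card
  have h' : (2 : ℝ) ≤ Fintype.card F := by exact_mod_cast h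
  rw [Fintype.card_prod, Fintype.card_subtype_compl, Fintype.card_subtype_eq, Nat.cast_mul,
    Nat.cast_sub (by omega)]
  push_cast
  nlinarith

theorem prob_par (h2 : (2 : F) ≠ 0) {δ : F} (hδ : ¬ IsSquare δ) {n : Fin 3 → F} (hn : n ≠ 0) :
    𝔼 α : Fin 3 → CT F, ind ((cols fun l => pv δ (α l)) *ᵥ n = 0) ≤
      4 / (Fintype.card F : ℝ) ^ 4 + 2 / (Fintype.card F : ℝ) ^ 2 * ind (HH n) +
        8 / (Fintype.card F : ℝ) ^ 3 * ind (n 0 + n 1 + n 2 ≠ 0) := by
  have hc := card_CT (F := F)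
  have hF : (0 : ℝ) < Fintype.card F := by exact_mod_cast Fintype.card_pos
  have hC : (0 : ℝ) < Fintype.card (CT F) := lt_of_lt_of_le (by positivity) hc
  have i1 := ind_nonneg (HH n)
  have i2 := ind_nonneg (n 0 + n 1 + n 2 ≠ 0)
  have hE : ∀ α : Fin 3 → CT F, (cols fun l => pv δ (α l)) *ᵥ n = 0 →
      ∀ c, pv δ (α 0) c * n 0 + pv δ (α 1) c * n 1 + pv δ (α 2) c * n 2 = 0 := fun α h c => by
    simpa [mulVec, dotProduct, Fin.sum_univ_three] using congrFun h c
  have pair : ∀ i j k : Fin 3, (∀ l, l = i ∨ l = j ∨ l = k) →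
      (∀ α : Fin 3 → CT F, (cols fun l => pv δ (α l)) *ᵥ n = 0 → HH n ∧ α i = α j) →
      𝔼 α : Fin 3 → CT F, ind ((cols fun l => pv δ (α l)) *ᵥ n = 0) ≤
      4 / (Fintype.card F : ℝ) ^ 4 + 2 / (Fintype.card F : ℝ) ^ 2 * ind (HH n) +
        8 / (Fintype.card F : ℝ) ^ 3 * ind (n 0 + n 1 + n 2 ≠ 0) := fun i j k hl h => by
    by_cases hH : HH n
    · refine (expect_ind_le_of_inj (fun α => (α i, α k)) fun α α' e e' e2 => ?_).trans ?_
      · simp only [Prod.mk.injEq] at e2
        funext l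
        rcases hl l with rfl | rfl | rfl
        · exact e2.1
        · rw [← (h α e).2, ← (h α' e').2, e2.1]
        · exact e2.2
      · rw [ind_pos hH, Fintype.card_prod (CT F), Fintype.card_fun, Fintype.card_fin]
        push_cast
        have : (Fintype.card (CT F) : ℝ) * Fintype.card (CT F) / (Fintype.card (CT F) : ℝ) ^ 3 ≤
            2 / (Fintype.card F : ℝ) ^ 2 := by
          rw [div_le_div_iff₀ (by positivity) (by positivity)]
          nlinarith [mul_pos hC hC]
        refine this.trans ?_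
        have : (0 : ℝ) ≤ 4 / (Fintype.card F : ℝ) ^ 4 := by positivity
        have : (0 : ℝ) ≤ 8 / (Fintype.card F : ℝ) ^ 3 * ind (n 0 + n 1 + n 2 ≠ 0) := by positivity
        linarith
    · rw [expect_eq_zero fun α _ => ind_neg fun e => hH (h α e).1]
      positivity
  have hne : ∀ i j k : Fin 3, (∀ l, l = i ∨ l = j ∨ l = k) → n k = 0 → n i ≠ 0 ∨ n j ≠ 0 :=
    fun i j k hl hk => by
      by_contra hcon
      push Not at hcon
      refine hn (funext fun l => ?_)
      rcases hl l with rfl | rfl | rfl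
      exacts [hcon.1, hcon.2, hk]
  by_cases n2 : n 2 = 0
  · refine pair 0 1 2 (by decide) fun α h => ?_
    have := pv_pair hδ (hne 0 1 2 (by decide) n2) fun c => by simpa [n2] using hE α h c
    exact ⟨Or.inl ⟨n2, this.1⟩, this.2⟩
  by_cases n1 : n 1 = 0
  · refine pair 0 2 1 (by decide) fun α h => ?_
    have := pv_pair hδ (hne 0 2 1 (by decide) n1) fun c => by simpa [n1] using hE α h c
    exact ⟨Or.inr (Or.inl ⟨n1, this.1⟩), this.2⟩
  by_cases n0 : n 0 = 0
  · refine pair 1 2 0 (by decide) fun α h => ?_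
    have := pv_pair hδ (hne 1 2 0 (by decide) n0) fun c => by simpa [n0] using hE α h c
    exact ⟨Or.inr (Or.inr ⟨n0, this.1⟩), this.2⟩
  have third : ∀ α α' : Fin 3 → CT F, (cols fun l => pv δ (α l)) *ᵥ n = 0 →
      (cols fun l => pv δ (α' l)) *ᵥ n = 0 → α 0 = α' 0 → α 1 = α' 1 → α = α' :=
    fun α α' h h' e0 e1 => by
      have a0 := hE α h 0
      have a1 := hE α h 1
      have a0' := hE α' h' 0
      have a1' := hE α' h' 1
      simp [pv, e0, e1] at a0 a1 a0' a1'
      funext l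
      fin_cases l
      · exact e0
      · exact e1
      · refine Prod.ext (Subtype.ext ?_) ?_ <;> apply mul_right_cancel₀ n2 <;>
          simp only [Fin.reduceFinMk]
        · linear_combination a0 - a0'
        · linear_combination a1 - a1'
  by_cases hs : n 0 + n 1 + n 2 = 0
  · refine (expect_ind_le_of_inj (fun α => α 0) fun α α' e e' e2 => ?_).trans ?_
    · have key : ∀ α : Fin 3 → CT F, (cols fun l => pv δ (α l)) *ᵥ n = 0 → α 1 = α 0 := fun α h => by
        have a0 := hE α h 0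
        have a1 := hE α h 1
        have a2 := hE α h 2
        simp [pv] at a0 a1 a2
        have e3 : n 2 = -n 0 - n 1 := by linear_combination hs
        rw [e3] at a0 a1 a2
        have := aniso hδ (a := (α 1).1.1 - (α 0).1.1) (b := (α 1).2 - (α 0).2) (by
          apply mul_left_cancel₀ (mul_ne_zero n0 n1)
          linear_combination (n 0 + n 1) * a2 -
            ((α 0).1.1 * n 0 + (α 1).1.1 * n 1 + (α 2).1.1 * (n 0 + n 1)) * a0 +
            δ * ((α 0).2 * n 0 + (α 1).2 * n 1 + (α 2).2 * (n 0 + n 1)) * a1)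
        exact Prod.ext (Subtype.ext (sub_eq_zero.1 this.1)) (sub_eq_zero.1 this.2)
      exact third α α' e e' e2 (by rw [key α e, key α' e']; exact e2)
    · rw [Fintype.card_fun, Fintype.card_fin]
      push_cast
      have : (Fintype.card (CT F) : ℝ) / (Fintype.card (CT F) : ℝ) ^ 3 ≤
          4 / (Fintype.card F : ℝ) ^ 4 := by
        rw [div_le_div_iff₀ (by positivity) (by positivity)]
        have : (Fintype.card F : ℝ) ^ 4 ≤ (2 * Fintype.card (CT F)) ^ 2 := by
          rw [show 4 = 2 * 2 from rfl, pow_mul]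
          gcongr
          linarith
        nlinarith
      refine this.trans ?_
      have : (0 : ℝ) ≤ 2 / (Fintype.card F : ℝ) ^ 2 * ind (HH n) := by positivity
      have : (0 : ℝ) ≤ 8 / (Fintype.card F : ℝ) ^ 3 * ind (n 0 + n 1 + n 2 ≠ 0) := by positivity
      linarith
  · refine (expect_ind_le (fun α => ((α 0).2, α 1)) 2 fun b s hsb => ?_).trans ?_
    · obtain ⟨y, β⟩ := b
      set Q : Polynomial F := Polynomial.C (n 0 * (n 2 + n 0)) * Polynomial.X ^ 2 +
        Polynomial.C (2 * n 0 * n 1 * β.1.1) * Polynomial.X +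
        Polynomial.C (n 2 * (-n 0 * δ * y ^ 2 + n 1 * (β.1.1 ^ 2 - δ * β.2 ^ 2)) +
          (n 1 * β.1.1) ^ 2 - δ * (n 0 * y + n 1 * β.2) ^ 2) with hQ
      have hQ0 : Q ≠ 0 := fun e => by
        have := congrArg (fun P : Polynomial F => P.coeff 1) e
        simp only [hQ, Polynomial.coeff_add, Polynomial.coeff_C_mul, Polynomial.coeff_X_pow,
          Polynomial.coeff_X_one, Polynomial.coeff_C, Polynomial.coeff_zero] at this
        simp [h2, n0, n1, β.1.2] at this
      refine le_trans (card_le_card_of_injOn (t := Q.roots.toFinset) (fun α => (α 0).1.1)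
        (fun α hα => ?_) fun α hα α' hα' e => ?_) ((Multiset.toFinset_card_le _).trans
          ((Polynomial.card_roots' Q).trans Polynomial.natDegree_quadratic_le))
      · obtain ⟨h, e⟩ := hsb α hα
        simp only [Prod.mk.injEq] at e
        have a0 := hE α h 0
        have a1 := hE α h 1
        have a2 := hE α h 2
        simp [pv, e.1, e.2] at a0 a1 a2
        simp only [mem_coe, Multiset.mem_toFinset, Polynomial.mem_roots hQ0, Polynomial.IsRoot.def]
        simp only [hQ, Polynomial.eval_add, Polynomial.eval_mul, Polynomial.eval_C,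
          Polynomial.eval_pow, Polynomial.eval_X]
        linear_combination n 2 * a2 +
          ((α 0).1.1 * n 0 + β.1.1 * n 1 - (α 2).1.1 * n 2) * a0 -
          δ * (y * n 0 + β.2 * n 1 - (α 2).2 * n 2) * a1
      · have e1 := (hsb α hα).2.trans (hsb α' hα').2.symm
        simp only [Prod.mk.injEq] at e1
        exact third α α' (hsb α hα).1 (hsb α' hα').1 (Prod.ext (Subtype.ext e) e1.1) e1.2
    · rw [ind_pos hs, Fintype.card_prod F, Fintype.card_fun, Fintype.card_fin]
      push_cast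
      have : 2 * ((Fintype.card F : ℝ) * Fintype.card (CT F)) / (Fintype.card (CT F) : ℝ) ^ 3 ≤
          8 / (Fintype.card F : ℝ) ^ 3 := by
        rw [div_le_div_iff₀ (by positivity) (by positivity)]
        have : (Fintype.card F : ℝ) ^ 4 ≤ (2 * Fintype.card (CT F)) ^ 2 := by
          rw [show 4 = 2 * 2 from rfl, pow_mul]
          gcongr
          linarith
        nlinarith
      refine this.trans ?_
      have : (0 : ℝ) ≤ 2 / (Fintype.card F : ℝ) ^ 2 * ind (HH n) := by positivity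
      have : (0 : ℝ) ≤ 4 / (Fintype.card F : ℝ) ^ 4 := by positivity
      linarith

end par

end Crest.Agent.R32
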