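import Crest.Agent.R32.Par
import Crest.Agent.R32.Core2

/-!
Row 32: the sum over small integer relations.
-/

set_option autoImplicit false

namespace Crest.Agent.R32

open Finset Matrix
open scoped BigOperators

theorem sum_box_one (k : ℕ) [NeZero k] (φ : (Fin 3 → ZMod k) → ℝ) (hφ : ∀ w, 0 ≤ φ w) (Y : ℕ) :
    ∑ n ∈ box Y, φ (red k n) ≤ (2 * Y / k + 1 : ℝ) ^ 3 * ∑ w, φ w := by
  simpa using sum_box_periodic (ι := Unit) (fun _ => k) (fun i j h => absurd rfl h)
    (fun _ => φ) (fun _ => hφ) Y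

theorem sum_a {Z : ℕ} {S : Finset V} (hS : ∀ n ∈ S, n ≠ 0 ∧ nm n ≤ Z) :
    ∑ n ∈ S, (1 : ℝ) / (nm n : ℝ) ^ 3 ≤ 216 * (Nat.log 2 Z + 1 : ℝ) := by
  refine (sum_dyadic (φ := fun _ => 1) (fun _ => zero_le_one) (A := 27) (by norm_num) (m₁ := 0)
    (fun Y hY _ => ?_) fun n hn => ⟨(hS n hn).1, Nat.zero_le _, (hS n hn).2⟩).trans
    (le_of_eq (by ring))
  have : (1 : ℝ) ≤ Y := by exact_mod_cast hY
  rw [sum_const, card_box, nsmul_eq_mul, mul_one]
  push_cast
  calc _ ≤ (3 * Y : ℝ) ^ 3 := by gcongr; linarith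
    _ = _ := by ring

theorem sum_c {P : ℕ} [Fact P.Prime] {Z : ℕ} {S : Finset V}
    (hS : ∀ n ∈ S, (∀ c, n c ≠ 0) ∧ nm n ≤ Z) :
    ∑ n ∈ S, ind (HH (red P n)) / (nm n : ℝ) ^ 3 ≤ 648 / (P : ℝ) ^ 2 * (Nat.log 2 Z + 1) := by
  classical
  have hP : (0 : ℝ) < P := by exact_mod_cast (Fact.out : P.Prime).pos
  have h1 : ∑ w : Fin 3 → ZMod P, ind (HH w) ≤ 3 * P := by
    have := expect_ind_le_of_inj (Ω := Fin 3 → ZMod P) (E := HH) (Ω' := Fin 3 × ZMod P)
      (fun w => if w 2 = 0 ∧ w 0 + w 1 = 0 then (0, w 0) else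
        if w 1 = 0 ∧ w 0 + w 2 = 0 then (1, w 0) else (2, w 1)) fun w w' h h' e => by
      unfold HH at h h'
      split_ifs at e with a b c d f g k l <;> simp only [Prod.mk.injEq] at e <;>
        first | exact absurd e.1 (by decide) | skip
      all_goals funext i; fin_cases i <;> simp only [Fin.reduceFinMk, Fin.zero_eta, Fin.mk_one]
      · exact e.2
      · linear_combination a.2 - b.2 - e.2
      · rw [a.1, b.1]
      · exact e.2
      · rw [d.1, g.1]
      · linear_combination d.2 - g.2 - e.2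
      · rw [((h.resolve_left a).resolve_left d).1, ((h'.resolve_left k).resolve_left l).1]
      · exact e.2
      · linear_combination ((h.resolve_left a).resolve_left d).2 -
          ((h'.resolve_left k).resolve_left l).2 - e.2
    rw [Fintype.expect_eq_sum_div_card, div_le_div_iff_of_pos_right
      (by exact_mod_cast Fintype.card_pos)] at this
    simpa using this
  rw [← sum_filter_of_ne (p := fun n => HH (red P n)) fun n _ h => by
    by_contra h'
    exact h (by rw [ind_neg h', zero_div])]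
  refine (sum_dyadic (φ := fun n => ind (HH (red P n))) (fun _ => ind_nonneg _)
    (A := 81 / (P : ℝ) ^ 2) (by positivity) (m₁ := P) (Z := Z)
    (fun Y _ hY => ?_) fun n hn => ?_).trans (le_of_eq (by ring))
  · refine (sum_box_one P (fun w => ind (HH w)) (fun _ => ind_nonneg _) Y).trans ?_
    have a1 : (P : ℝ) ≤ Y := by exact_mod_cast hY
    have a2 : (2 * Y / P + 1 : ℝ) ≤ 3 * Y / P := by
      rw [div_add_one hP.ne']
      gcongr
      linarith
    calc _ ≤ (3 * Y / P : ℝ) ^ 3 * (3 * P) := by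
          gcongr
          exact sum_nonneg fun _ _ => ind_nonneg _
      _ = _ := by field_simp; norm_num
  · obtain ⟨a1, a2⟩ := mem_filter.1 hn
    obtain ⟨c, hc⟩ : ∃ c, red P n c = 0 := by
      rcases a2 with h | h | h
      exacts [⟨_, h.1⟩, ⟨_, h.1⟩, ⟨_, h.1⟩]
    have a3 := Int.le_of_dvd (abs_pos.2 ((hS n a1).1 c))
      ((dvd_abs _ _).2 ((ZMod.intCast_zmod_eq_zero_iff_dvd _ _).1 hc))
    have a4 := le_nm n c
    exact ⟨fun e => (hS n a1).1 0 (by rw [e]; rfl), by omega, (hS n a1).2⟩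

theorem sum_b {k : ℕ} [Fact k.Prime] {M : M3 (ZMod k)} {x : ZMod k} (hx : x ≠ 0)
    (hM : ∀ l, M 0 l = x) {Z : ℕ} {S : Finset V} (hS : ∀ n ∈ S, Prim n ∧ nm n ≤ Z) :
    ∑ n ∈ S, ind (n 0 + n 1 + n 2 ≠ 0 ∧ M *ᵥ red k n = 0) / (nm n : ℝ) ^ 3 ≤
      1000 / (k : ℝ) ^ 3 * (k * ind (1 ≤ df M) + k ^ 2 * ind (2 ≤ df M)) * (Nat.log 2 Z + 1) := by
  classical
  have hk : (0 : ℝ) < k := by exact_mod_cast (Fact.out : k.Prime).pos
  have i1 := ind_nonneg (1 ≤ df M)
  have i2 := ind_nonneg (2 ≤ df M)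
  have h1 : ∑ w : Fin 3 → ZMod k, ind (w ≠ 0 ∧ M *ᵥ w = 0) ≤
      k * ind (1 ≤ df M) + k ^ 2 * ind (2 ≤ df M) := by
    have a1 : df M ≤ 2 := df_le_two fun e => hx (by rw [← hM 0, e]; rfl)
    have a2 : ∑ w : Fin 3 → ZMod k, ind (w ≠ 0 ∧ M *ᵥ w = 0) ≤ (k : ℝ) ^ df M := by
      rw [sum_ind]
      have := card_ker M
      rw [ZMod.card] at this
      have a3 : (univ.filter fun w : Fin 3 → ZMod k => w ≠ 0 ∧ M *ᵥ w = 0).card ≤
          (univ.filter fun w : Fin 3 → ZMod k => M *ᵥ w = 0).card :=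
        card_le_card fun w hw => mem_filter.2 ⟨mem_univ _, (mem_filter.1 hw).2.2⟩
      exact_mod_cast a3.trans this.le
    generalize hd : df M = d at *
    interval_cases d
    · rw [sum_eq_zero fun w _ => ind_neg fun h => absurd (one_le_df h.1 h.2) (by omega)]
      positivity
    · rw [ind_pos le_rfl]
      nlinarith
    · rw [ind_pos (le_refl 2)]
      nlinarith
  rw [← sum_filter_of_ne (p := fun n => n 0 + n 1 + n 2 ≠ 0 ∧ M *ᵥ red k n = 0) fun n _ h => by
    by_contra h'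
    exact h (by rw [ind_neg h', zero_div])]
  refine le_trans (sum_le_sum fun n hn => ?_)
    ((sum_dyadic (φ := fun n => ind (red k n ≠ 0 ∧ M *ᵥ red k n = 0)) (fun _ => ind_nonneg _)
    (A := 125 / (k : ℝ) ^ 3 * (k * ind (1 ≤ df M) + k ^ 2 * ind (2 ≤ df M))) (by positivity)
    (m₁ := (k + 2) / 3) (Z := Z) (fun Y _ hY => ?_) fun n hn => ?_).trans (le_of_eq (by ring)))
  · gcongr
    exact ind_mono fun h => ⟨(hS n (mem_filter.1 hn).1).1.red_ne k, h.2⟩
  · refine (sum_box_one k (fun w => ind (w ≠ 0 ∧ M *ᵥ w = 0)) (fun _ => ind_nonneg _) Y).trans ?_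
    have a1 : (k : ℝ) ≤ 3 * Y := by exact_mod_cast (by omega : k ≤ 3 * Y)
    have a2 : (2 * Y / k + 1 : ℝ) ≤ 5 * Y / k := by
      rw [div_add_one hk.ne']
      gcongr
      linarith
    calc _ ≤ (5 * Y / k : ℝ) ^ 3 * (k * ind (1 ≤ df M) + k ^ 2 * ind (2 ≤ df M)) := by
          gcongr
          exact sum_nonneg fun _ _ => ind_nonneg _
      _ = _ := by ring
  · obtain ⟨a1, a2, a3⟩ := mem_filter.1 hn
    have a4 := congrFun a3 0
    simp only [mulVec, dotProduct, Fin.sum_univ_three, hM, ← mul_add, Pi.zero_apply, mul_eq_zero,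
      hx, false_or, red, ← Int.cast_add] at a4
    have a5 := Int.le_of_dvd (abs_pos.2 a2)
      ((dvd_abs _ _).2 ((ZMod.intCast_zmod_eq_zero_iff_dvd _ _).1 a4))
    have a6 := abs_add_three (n 0) (n 1) (n 2)
    have b0 := le_nm n 0
    have b1 := le_nm n 1
    have b2 := le_nm n 2
    exact ⟨(hS n a1).1.ne_zero, by omega, (hS n a1).2⟩

section fib
variable {F : Type} [Field F] [Fintype F] [DecidableEq F]

theorem fib_det_bound {κ : F} (hκ : κ ≠ 0) (M N : M3 F) :
    ((((univ : Finset (M3 F)).filter fun g => g.det = κ).filter fun g => g * M = N).card : ℝ) ≤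
      12 * (Fintype.card F : ℝ) ^ (3 * df M) / (Fintype.card F : ℝ) ^ 9 *
        (if df M = 0 then (Fintype.card F : ℝ) else 1) *
        ((univ : Finset (M3 F)).filter fun g => g.det = κ).card := by
  have hF : (0 : ℝ) < Fintype.card F := by exact_mod_cast Fintype.card_pos
  have h1 : (Fintype.card F : ℝ) ^ 8 / 4 ≤ ((univ : Finset (M3 F)).filter fun g => g.det = κ).card := by
    rw [div_le_iff₀' (by norm_num)]
    exact_mod_cast card_det hκ
  refine le_trans ?_ (mul_le_mul_of_nonneg_left h1 (by positivity))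
  rw [filter_filter]
  split_ifs with h
  · have h2 : (univ.filter fun g : M3 F => g.det = κ ∧ g * M = N).card ≤ 1 := by
      have := card_fib M N
      rw [h] at this
      exact (card_le_card fun g hg => mem_filter.2 ⟨mem_univ _, (mem_filter.1 hg).2.2⟩).trans this
    rw [h]
    calc _ ≤ (1 : ℝ) := by exact_mod_cast h2
      _ ≤ 3 := by norm_num
      _ = _ := by field_simp; norm_num
  · have h2 := card_fib_det M N (by omega) hκ
    calc _ ≤ 3 * (Fintype.card F : ℝ) ^ (3 * df M) / Fintype.card F := by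
          rw [le_div_iff₀ hF]; exact_mod_cast h2
      _ = _ := by field_simp; norm_num

theorem fib_GL_bound (M N : M3 F) :
    ((((univ : Finset (M3 F)).filter fun g => g.det ≠ 0).filter fun g => g * M = N).card : ℝ) ≤
      12 * (Fintype.card F : ℝ) ^ (3 * df M) / (Fintype.card F : ℝ) ^ 9 *
        (if df M = 0 then 1 else 1) *
        ((univ : Finset (M3 F)).filter fun g => g.det ≠ 0).card := by
  have hF : (0 : ℝ) < Fintype.card F := by exact_mod_cast Fintype.card_pos
  have h1 : (Fintype.card F : ℝ) ^ 9 / 4 ≤ ((univ : Finset (M3 F)).filter fun g => g.det ≠ 0).card := by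
    rw [div_le_iff₀' (by norm_num)]
    exact_mod_cast card_GL
  refine le_trans ?_ (mul_le_mul_of_nonneg_left h1 (by positivity))
  have h2 : (((univ : Finset (M3 F)).filter fun g => g.det ≠ 0).filter fun g => g * M = N).card ≤
      Fintype.card F ^ (3 * df M) :=
    (card_le_card fun g hg => mem_filter.2 ⟨mem_univ _, (mem_filter.1 hg).2⟩).trans (card_fib M N)
  calc _ ≤ (Fintype.card F : ℝ) ^ (3 * df M) := by exact_mod_cast h2
    _ ≤ 3 * (Fintype.card F : ℝ) ^ (3 * df M) := le_mul_of_one_le_left (by positivity) (by norm_num)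
    _ = _ := by rw [ite_self]; field_simp; norm_num

end fib

end Crest.Agent.R32
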